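import Mathlib

/-!
# P302: bin packing, the configuration LP, and a verified infeasibility check
-/

namespace Vale.Agent.Lib.P302

open Finset

/-- `f` packs the items of the list `I` into `k` bins of capacity one. -/
def IsPacking (I : List ℚ) (k : ℕ) (f : Fin I.length → Fin k) : Prop :=
  ∀ j : Fin k, ∑ i ∈ univ.filter (fun i => f i = j), I.get i ≤ 1

/-- The least number of bins into which the items of `I` can be partitioned. -/
noncomputable def OPT (I : List ℚ) : ℕ :=
  sInf {k : ℕ | ∃ f : Fin I.length → Fin k, IsPacking I k f}

/-- A configuration: a multiplicity vector on the distinct sizes of `I` of total size at most one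
(values of `c` outside the sizes of `I` play no role). -/
def IsConfig (I : List ℚ) (c : ℚ → ℕ) : Prop :=
  ∑ σ ∈ I.toFinset, σ * (c σ : ℚ) ≤ 1

/-- `v` is the value of a feasible solution of the Gilmore-Gomory configuration LP of `I`:
a finite family of configurations with nonnegative real weights covering every size at least
as often as its multiplicity. -/
def IsLPValue (I : List ℚ) (v : ℝ) : Prop :=
  ∃ (m : ℕ) (c : Fin m → ℚ → ℕ) (z : Fin m → ℝ),
    (∀ j, IsConfig I (c j)) ∧ (∀ j, 0 ≤ z j) ∧
    (∀ σ ∈ I.toFinset, (I.count σ : ℝ) ≤ ∑ j, (c j σ : ℝ) * z j) ∧ v = ∑ j, z j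

/-- The value of the configuration LP. -/
noncomputable def LP (I : List ℚ) : ℝ := sInf {v : ℝ | IsLPValue I v}

/-! ## General facts on OPT and LP -/

theorem LP_le {I : List ℚ} {v : ℝ} (h : IsLPValue I v) : LP I ≤ v := by
  have hb : BddBelow {v : ℝ | IsLPValue I v} := by
    refine ⟨0, ?_⟩
    rintro w ⟨m, c, z, -, hz, -, rfl⟩
    exact Finset.sum_nonneg (fun j _ => hz j)
  exact csInf_le hb h

theorem isPacking_mono {I : List ℚ} {k k' : ℕ} (hk : k' ≤ k)
    (h : ∃ f : Fin I.length → Fin k', IsPacking I k' f) :
    ∃ f : Fin I.length → Fin k, IsPacking I k f := by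
  obtain ⟨f, hf⟩ := h
  refine ⟨fun i => Fin.castLE hk (f i), ?_⟩
  intro j
  by_cases hj : j.val < k'
  · have : univ.filter (fun i => Fin.castLE hk (f i) = j) = univ.filter (fun i => f i = ⟨j.val, hj⟩) := by
      ext i
      simp [Fin.ext_iff]
    rw [this]
    exact hf _
  · have : univ.filter (fun i => Fin.castLE hk (f i) = j) = ∅ := by
      ext i
      simp only [mem_filter, mem_univ, true_and, notMem_empty, iff_false]
      intro h
      apply hj
      rw [← h]
      exact (f i).isLt
    rw [this]
    simp

theorem exists_packing {I : List ℚ} (h1 : ∀ a ∈ I, a ≤ 1) :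
    ∃ f : Fin I.length → Fin I.length, IsPacking I I.length f := by
  refine ⟨id, ?_⟩
  intro j
  have : univ.filter (fun i : Fin I.length => id i = j) = {j} := by
    ext i
    simp
  rw [this]
  simpa using h1 _ (List.get_mem I j)

theorem lt_OPT {I : List ℚ} {k : ℕ} (h1 : ∀ a ∈ I, a ≤ 1)
    (h : ¬ ∃ f : Fin I.length → Fin k, IsPacking I k f) : k < OPT I := by
  by_contra hlt
  rw [not_lt] at hlt
  apply h
  apply isPacking_mono hlt
  have hne : {k : ℕ | ∃ f : Fin I.length → Fin k, IsPacking I k f}.Nonempty :=
    ⟨I.length, exists_packing h1⟩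
  exact Nat.sInf_mem hne

/-! ## Integer model -/

/-- the items `l` (natural numbers) fit into bins indexed by `Fin k` with capacities `cap`. -/
def Fits {k : ℕ} (l : List ℕ) (cap : Fin k → ℕ) : Prop :=
  ∃ f : Fin l.length → Fin k, ∀ j, ∑ i, (if f i = j then l.get i else 0) ≤ cap j

theorem Fits.step {k : ℕ} {x : ℕ} {xs : List ℕ} {cap : Fin k → ℕ} (h : Fits (x :: xs) cap) :
    ∃ j, x ≤ cap j ∧ Fits xs (Function.update cap j (cap j - x)) := by
  obtain ⟨f, hf⟩ := h
  let f' : Fin (xs.length + 1) → Fin k := f
  have key : ∀ j, (if f' 0 = j then x else 0) +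
      ∑ i : Fin xs.length, (if f' i.succ = j then xs.get i else 0) ≤ cap j := by
    intro j
    have := hf j
    have e : (∑ i : Fin (x :: xs).length, (if f i = j then (x :: xs).get i else 0)) =
      ∑ i : Fin (xs.length + 1), (if f' i = j then (x :: xs).get i else 0) := rfl
    rw [e, Fin.sum_univ_succ] at this
    exact this
  refine ⟨f' 0, ?_, fun i => f' i.succ, ?_⟩
  · have := key (f' 0)
    simp only [if_true] at this
    omega
  · intro j
    show ∑ i : Fin xs.length, (if f' i.succ = j then xs.get i else 0) ≤ _
    by_cases hj : j = f' 0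
    · subst hj
      have := key (f' 0)
      simp only [if_true] at this
      rw [Function.update_self]
      omega
    · have := key j
      rw [if_neg (Ne.symm hj)] at this
      rw [Function.update_of_ne hj]
      omega

/-- total size bound, ignoring the bins that are too small for every item. -/
theorem Fits.sum_le {k : ℕ} {l : List ℕ} {cap : Fin k → ℕ} {m : ℕ} (h : Fits l cap)
    (hm : ∀ x ∈ l, m ≤ x) : l.sum ≤ ∑ j, (if m ≤ cap j then cap j else 0) := by
  obtain ⟨f, hf⟩ := h
  have h1 : l.sum = ∑ j, ∑ i, (if f i = j then l.get i else 0) := by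
    rw [Finset.sum_comm]
    simp only [Finset.sum_ite_eq, mem_univ, if_true]
    exact (Fin.sum_univ_getElem l).symm
  rw [h1]
  apply Finset.sum_le_sum
  intro j _
  split_ifs with hc
  · exact hf j
  · apply le_of_eq
    apply Finset.sum_eq_zero
    intro i _
    split_ifs with hi
    · exfalso
      apply hc
      have h2 : l.get i ≤ ∑ i, (if f i = j then l.get i else 0) := by
        have := Finset.single_le_sum (f := fun i => if f i = j then l.get i else 0)
          (fun _ _ => Nat.zero_le _) (mem_univ i)
        simpa [hi] using this
      exact (hm _ (List.get_mem l i)).trans (h2.trans (hf j))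
    · rfl

/-! ## The search procedure -/

/-- sum of the capacities that are at least `m`. -/
def usable (m : ℕ) : List ℕ → ℕ
  | [] => 0
  | c :: cs => (if m ≤ c then c else 0) + usable m cs

/-- try to put an item of size `x` into one bin of each distinct capacity occurring in the list. -/
def tryBins (x : ℕ) (kont : List ℕ → Bool) (caps : List ℕ) : List ℕ → Bool
  | [] => false
  | c :: rest =>
    (decide (x ≤ c) && !(rest.elem c) && kont ((c - x) :: caps.erase c)) || tryBins x kont caps rest

/-- depth first search: can the items be placed into bins with the given free capacities?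
`m` is a lower bound for all item sizes, used for pruning. -/
def place (m : ℕ) : List ℕ → List ℕ → Bool
  | [], _ => true
  | x :: xs, caps =>
    decide ((x :: xs).sum ≤ usable m caps) && tryBins x (place m xs) caps caps

theorem tryBins_true {x : ℕ} {kont : List ℕ → Bool} {caps : List ℕ} {c : ℕ} (hx : x ≤ c)
    (hk : kont ((c - x) :: caps.erase c) = true) :
    ∀ l : List ℕ, c ∈ l → tryBins x kont caps l = true := by
  intro l
  induction l with
  | nil => intro h; simp at h
  | cons d rest ih =>
    intro h
    by_cases hr : c ∈ rest
    · simp [tryBins, ih hr]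
    · have hd : c = d := by
        rcases List.mem_cons.1 h with h | h
        · exact h
        · exact absurd h hr
      subst hd
      simp [tryBins, hx, hk, hr]

theorem usable_eq (m : ℕ) (caps : List ℕ) :
    usable m caps = (caps.map (fun c => if m ≤ c then c else 0)).sum := by
  induction caps with
  | nil => rfl
  | cons c cs ih => simp [usable, ih]

theorem place_complete (m : ℕ) : ∀ (l : List ℕ) (k : ℕ) (cap : Fin k → ℕ) (caps : List ℕ),
    (caps : Multiset ℕ) = (univ : Finset (Fin k)).val.map cap → (∀ x ∈ l, m ≤ x) → Fits l cap →
    place m l caps = true := by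
  intro l
  induction l with
  | nil => intros; rfl
  | cons x xs ih =>
    intro k cap caps hcaps hm hfit
    have hsum := hfit.sum_le hm
    obtain ⟨j, hxj, hfit'⟩ := hfit.step
    have hus : usable m caps = ∑ j, (if m ≤ cap j then cap j else 0) := by
      rw [usable_eq]
      have : ((caps.map (fun c => if m ≤ c then c else 0) : List ℕ) : Multiset ℕ).sum =
          (((univ : Finset (Fin k)).val.map cap).map (fun c => if m ≤ c then c else 0)).sum := by
        rw [← hcaps]; rfl
      rw [Multiset.sum_coe] at this
      rw [this, Multiset.map_map]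
      rfl
    have hmem : cap j ∈ caps := by
      have : cap j ∈ (caps : Multiset ℕ) := by
        rw [hcaps]
        exact Multiset.mem_map_of_mem cap (mem_univ j)
      simpa using this
    have hcaps' : (((cap j - x) :: caps.erase (cap j) : List ℕ) : Multiset ℕ) =
        (univ : Finset (Fin k)).val.map (Function.update cap j (cap j - x)) := by
      have e1 : (univ : Finset (Fin k)).val = j ::ₘ (univ.erase j).val := by
        rw [Finset.erase_val, Multiset.cons_erase (mem_univ j)]
      have e2 : (univ.erase j).val.map (Function.update cap j (cap j - x)) =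
          (univ.erase j).val.map cap := by
        apply Multiset.map_congr rfl
        intro i hi
        have : i ≠ j := Finset.ne_of_mem_erase (s := univ) hi
        rw [Function.update_of_ne this]
      have e3 : (caps : Multiset ℕ) = cap j ::ₘ (univ.erase j).val.map cap := by
        rw [hcaps]
        conv_lhs => rw [e1]
        rw [Multiset.map_cons]
      have e4 : ((caps.erase (cap j) : List ℕ) : Multiset ℕ) = (univ.erase j).val.map cap := by
        rw [← Multiset.coe_erase, e3, Multiset.erase_cons_head]
      conv_rhs => rw [e1]
      rw [Multiset.map_cons, Function.update_self, e2, ← e4]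
      rfl
    have hrec := ih k _ _ hcaps' (fun y hy => hm y (List.mem_cons_of_mem _ hy)) hfit'
    have h2 := tryBins_true hxj hrec caps hmem
    simp only [place, Bool.and_eq_true, decide_eq_true_eq]
    exact ⟨by rw [hus]; exact hsum, h2⟩

/-! ## From naturals to rationals -/

/-- the bin packing instance with capacity `C` and integer sizes `l`, rescaled to capacity one. -/
def inst (C : ℕ) (l : List ℕ) : List ℚ := l.map (fun w : ℕ => (w : ℚ) / (C : ℚ))

theorem inst_length (C : ℕ) (l : List ℕ) : (inst C l).length = l.length := by simp [inst]

theorem no_packing {C : ℕ} (hC : 0 < C) {l : List ℕ} {k m : ℕ} (hm : ∀ x ∈ l, m ≤ x)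
    (h : place m l (List.replicate k C) = false) :
    ¬ ∃ f : Fin (inst C l).length → Fin k, IsPacking (inst C l) k f := by
  rintro ⟨f, hf⟩
  have hfit : Fits l (fun _ : Fin k => C) := by
    refine ⟨fun i => f (Fin.cast (inst_length C l).symm i), ?_⟩
    intro j
    have h1 := hf j
    rw [Finset.sum_filter] at h1
    have h2 : ∑ i : Fin (inst C l).length, (if f i = j then (inst C l).get i else 0) =
        ∑ i : Fin l.length, (if f (Fin.cast (inst_length C l).symm i) = j then
          ((l.get i : ℕ) : ℚ) / (C : ℚ) else 0) := by
      symm
      apply Fintype.sum_equiv (finCongr (inst_length C l).symm)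
      intro i
      have e : (inst C l).get ((finCongr (inst_length C l).symm) i) = ((l.get i : ℕ) : ℚ) / (C : ℚ) := by
        simp only [inst, List.get_eq_getElem, List.getElem_map]
        rfl
      rw [e]
      rfl
    rw [h2] at h1
    have hCq : (0 : ℚ) < (C : ℚ) := by exact_mod_cast hC
    have h3 : ∑ i : Fin l.length, (if f (Fin.cast (inst_length C l).symm i) = j then
          ((l.get i : ℕ) : ℚ) / (C : ℚ) else 0) =
        ((∑ i : Fin l.length, (if f (Fin.cast (inst_length C l).symm i) = j then
          l.get i else 0) : ℕ) : ℚ) / (C : ℚ) := by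
      push_cast
      rw [Finset.sum_div]
      apply Finset.sum_congr rfl
      intro i _
      split_ifs <;> simp
    rw [h3, div_le_one hCq] at h1
    exact_mod_cast h1
  have := place_complete m l k (fun _ => C) (List.replicate k C)
    (by simp [Multiset.map_const', Multiset.coe_replicate]) hm hfit
  rw [h] at this
  exact Bool.false_ne_true this

end Vale.Agent.Lib.P302
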