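import Mathlib
import Vale.Agent.Lib.P302.Basic

/-!
# P302: a verified bin-by-bin infeasibility search with a pruning oracle
-/

namespace Vale.Agent.Lib.P302

open Finset

/-- the multiset `s` of sizes can be split into `k` bins of capacity `C`. -/
def MPack (C k : ℕ) (s : Multiset ℕ) : Prop :=
  ∃ bins : Multiset (Multiset ℕ), Multiset.card bins = k ∧ bins.join = s ∧ ∀ b ∈ bins, b.sum ≤ C

theorem MPack.sum_le {C k : ℕ} {s : Multiset ℕ} (h : MPack C k s) : s.sum ≤ k * C := by
  obtain ⟨bins, hk, rfl, hb⟩ := h
  rw [Multiset.sum_join, ← hk]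
  have := Multiset.sum_le_card_nsmul (bins.map Multiset.sum) C (by
    intro x hx
    obtain ⟨b, hb', rfl⟩ := Multiset.mem_map.1 hx
    exact hb b hb')
  simpa using this

theorem MPack.zero {C : ℕ} {s : Multiset ℕ} (h : MPack C 0 s) : s = 0 := by
  obtain ⟨bins, hk, rfl, -⟩ := h
  rw [Multiset.card_eq_zero] at hk
  subst hk
  simp

theorem MPack.split {C k : ℕ} {x : ℕ} {s : Multiset ℕ} (h : MPack C k (x ::ₘ s)) :
    ∃ (t : Multiset ℕ) (rest : Multiset (Multiset ℕ)), Multiset.card rest + 1 = k ∧
      s = t + rest.join ∧ x + t.sum ≤ C ∧ ∀ b ∈ rest, b.sum ≤ C := by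
  obtain ⟨bins, hk, hj, hb⟩ := h
  have hx : x ∈ bins.join := by rw [hj]; exact Multiset.mem_cons_self x s
  obtain ⟨b, hbm, hxb⟩ := Multiset.mem_join.1 hx
  obtain ⟨rest, rfl⟩ := Multiset.exists_cons_of_mem hbm
  obtain ⟨t, rfl⟩ := Multiset.exists_cons_of_mem hxb
  refine ⟨t, rest, ?_, ?_, ?_, ?_⟩
  · rw [← hk, Multiset.card_cons]
  · rw [Multiset.join_cons, Multiset.cons_add] at hj
    exact ((Multiset.cons_inj_right x).1 hj).symm
  · have := hb (x ::ₘ t) (Multiset.mem_cons_self _ _)
    simpa using this
  · intro b' hb'
    exact hb b' (Multiset.mem_cons_of_mem hb')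

theorem MPack.peel {C k : ℕ} {x : ℕ} {s : Multiset ℕ} (h : MPack C (k + 1) (x ::ₘ s)) :
    ∃ t r : Multiset ℕ, s = t + r ∧ x + t.sum ≤ C ∧ MPack C k r := by
  obtain ⟨t, rest, hk, hs, hx, hb⟩ := h.split
  exact ⟨t, rest.join, hs, hx, rest, by omega, rfl, hb⟩

theorem MPack.replace {C k : ℕ} {x : ℕ} {s : Multiset ℕ} (h : MPack C k (x ::ₘ s))
    (u : Multiset ℕ) (hu : u.sum ≤ x) : MPack C k (u + s) := by
  obtain ⟨t, rest, hk, hs, hx, hb⟩ := h.split
  refine ⟨(u + t) ::ₘ rest, by rw [Multiset.card_cons]; exact hk, ?_, ?_⟩
  · rw [Multiset.join_cons, hs, add_assoc]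
  · intro b hb'
    rcases Multiset.mem_cons.1 hb' with rfl | hb'
    · rw [Multiset.sum_add]; omega
    · exact hb b hb'

theorem MPack.drop_add {C k : ℕ} {s : Multiset ℕ} : ∀ v : Multiset ℕ, MPack C k (v + s) →
    MPack C k s := by
  intro v
  induction v using Multiset.induction_on with
  | empty => intro h; simpa using h
  | cons x v ih =>
    intro h
    rw [Multiset.cons_add] at h
    have := h.replace 0 (by simp)
    rw [zero_add] at this
    exact ih this

/-! ## The search -/

/-- complete the current bin. `todo`: items still to be considered for this bin; `room`: free space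
of the bin; `slack`: total capacity of the later bins minus the total size of the skipped items;
`skip`: the skipped items, in reverse order. -/
def fill (kont : List ℕ → Bool) : List ℕ → ℕ → ℕ → List ℕ → Bool
  | [], _, _, skip => kont skip
  | x :: xs, room, slack, skip =>
    (Nat.ble x room && fill kont xs (room - x) slack skip) ||
    (Nat.ble x slack && fill kont xs room (slack - x) (x :: skip))

/-- can the items be packed into `k` bins of capacity `C`?  The first item opens a bin, and all ways
to complete this bin are tried.  `orc` is a pruning oracle. -/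
def search (C : ℕ) (orc : ℕ → List ℕ → Bool) : ℕ → List ℕ → Bool
  | 0, l => l.isEmpty
  | _ + 1, [] => true
  | k + 1, x :: xs =>
    orc (k + 1) (x :: xs) && (Nat.ble x C &&
      fill (fun skip => search C orc k skip.reverse) xs (C - x) (k * C) [])

theorem fill_complete {C k : ℕ} {kont : List ℕ → Bool}
    (hk : ∀ l : List ℕ, MPack C k (l : Multiset ℕ) → kont l = true) :
    ∀ (todo : List ℕ) (room slack : ℕ) (skip : List ℕ) (t r : Multiset ℕ),
      (todo : Multiset ℕ) = t + r → t.sum ≤ room → skip.sum + slack = k * C →
      MPack C k ((skip : Multiset ℕ) + r) → fill kont todo room slack skip = true := by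
  intro todo
  induction todo with
  | nil =>
    intro room slack skip t r h _ _ hp
    have h0 : t + r = 0 := h.symm
    have hr : r = 0 := (add_eq_zero.1 h0).2
    subst hr
    rw [add_zero] at hp
    exact hk skip hp
  | cons x xs ih =>
    intro room slack skip t r h ht hs hp
    have hx : x ∈ t + r := by
      rw [← h]
      simp
    rw [← Multiset.cons_coe] at h
    rcases Multiset.mem_add.1 hx with hx | hx
    · obtain ⟨t', rfl⟩ := Multiset.exists_cons_of_mem hx
      rw [Multiset.cons_add] at h
      have h' := (Multiset.cons_inj_right x).1 h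
      rw [Multiset.sum_cons] at ht
      have := ih (room - x) slack skip t' r h' (by omega) hs hp
      have hxr : Nat.ble x room = true := Nat.ble_eq_true_of_le (by omega)
      simp [fill, this, hxr]
    · obtain ⟨r', rfl⟩ := Multiset.exists_cons_of_mem hx
      rw [Multiset.add_cons] at h
      have h' := (Multiset.cons_inj_right x).1 h
      have hsum := hp.sum_le
      rw [Multiset.sum_add, Multiset.sum_cons, Multiset.sum_coe] at hsum
      have hp' : MPack C k (((x :: skip : List ℕ) : Multiset ℕ) + r') := by
        rw [← Multiset.cons_coe, Multiset.cons_add, ← Multiset.add_cons]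
        exact hp
      have := ih room (slack - x) (x :: skip) t r' h' ht
        (by rw [List.sum_cons]; omega) hp'
      have hxr : Nat.ble x slack = true := Nat.ble_eq_true_of_le (by omega)
      simp [fill, this, hxr]

theorem search_complete {C : ℕ} {orc : ℕ → List ℕ → Bool}
    (horc : ∀ (k : ℕ) (l : List ℕ), MPack C k (l : Multiset ℕ) → orc k l = true) :
    ∀ (k : ℕ) (l : List ℕ), MPack C k (l : Multiset ℕ) → search C orc k l = true := by
  intro k
  induction k with
  | zero =>
    intro l h
    have := h.zero
    have hl : l = [] := by simpa using this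
    subst hl
    rfl
  | succ k ih =>
    intro l h
    cases l with
    | nil => rfl
    | cons x xs =>
      have ho := horc _ _ h
      rw [← Multiset.cons_coe] at h
      obtain ⟨t, r, hs, hx, hp⟩ := h.peel
      have hf := fill_complete (C := C) (k := k)
        (kont := fun skip => search C orc k skip.reverse)
        (fun l hl => ih l.reverse (by rw [Multiset.coe_reverse]; exact hl))
        xs (C - x) (k * C) [] t r hs (by omega) (by simp) (by simpa using hp)
      have hxC : Nat.ble x C = true := Nat.ble_eq_true_of_le (by omega)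
      simp only [search, ho, hxC, hf, Bool.and_self]

/-! ## Domination -/

/-- `ref` is pointwise at most a prefix of `l`. -/
def domBy : List ℕ → List ℕ → Bool
  | [], _ => true
  | _ :: _, [] => false
  | r :: rs, x :: xs => Nat.ble r x && domBy rs xs

theorem MPack.of_domBy {C k : ℕ} : ∀ (ref l : List ℕ) (u : Multiset ℕ), domBy ref l = true →
    MPack C k (u + (l : Multiset ℕ)) → MPack C k (u + (ref : Multiset ℕ)) := by
  intro ref
  induction ref with
  | nil =>
    intro l u _ h
    rw [add_comm] at h
    simpa using MPack.drop_add _ h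
  | cons r rs ih =>
    intro l u hd h
    cases l with
    | nil => simp [domBy] at hd
    | cons x xs =>
      simp only [domBy, Bool.and_eq_true, Nat.ble_eq] at hd
      rw [← Multiset.cons_coe, Multiset.add_cons] at h
      have h2 := h.replace {r} (by simpa using hd.1)
      rw [← add_assoc] at h2
      have h3 := ih xs ({r} + u) hd.2 h2
      rw [← Multiset.cons_coe, Multiset.add_cons]
      rw [Multiset.singleton_add, Multiset.cons_add] at h3
      exact h3

/-! ## From functions to multisets -/

theorem mpack_of_fits {l : List ℕ} {k C : ℕ} (h : Fits l (fun _ : Fin k => C)) :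
    MPack C k (l : Multiset ℕ) := by
  obtain ⟨f, hf⟩ := h
  refine ⟨(univ : Finset (Fin k)).val.map
    (fun j => ∑ i ∈ univ.filter (fun i => f i = j), ({l.get i} : Multiset ℕ)), by simp, ?_, ?_⟩
  · have e1 : ((univ : Finset (Fin k)).val.map
        (fun j => ∑ i ∈ univ.filter (fun i => f i = j), ({l.get i} : Multiset ℕ))).join =
        ∑ j : Fin k, ∑ i ∈ univ.filter (fun i => f i = j), ({l.get i} : Multiset ℕ) := rfl
    rw [e1, Finset.sum_fiberwise]
    have e2 : ∑ i : Fin l.length, ({l.get i} : Multiset ℕ) =
        (((univ : Finset (Fin l.length)).val.map l.get).map (fun a => ({a} : Multiset ℕ))).sum := by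
      rw [Multiset.map_map]
      rfl
    rw [e2, Multiset.sum_map_singleton, Fin.univ_val_map, List.ofFn_get]
  · intro b hb
    obtain ⟨j, -, rfl⟩ := Multiset.mem_map.1 hb
    rw [Multiset.sum_sum]
    have := hf j
    simp only [Multiset.sum_singleton]
    rw [Finset.sum_filter]
    exact this

theorem fits_of_packing {C : ℕ} (hC : 0 < C) {l : List ℕ} {k : ℕ}
    (h : ∃ f : Fin (inst C l).length → Fin k, IsPacking (inst C l) k f) :
    Fits l (fun _ : Fin k => C) := by
  obtain ⟨f, hf⟩ := h
  refine ⟨fun i => f (Fin.cast (inst_length C l).symm i), ?_⟩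
  intro j
  have h1 := hf j
  rw [Finset.sum_filter] at h1
  have h2 : ∑ i : Fin (inst C l).length, (if f i = j then (inst C l).get i else 0) =
      ∑ i : Fin l.length, (if f (Fin.cast (inst_length C l).symm i) = j then
        ((l.get i : ℕ) : ℚ) / (C : ℚ) else 0) := by
    symm
    apply Fintype.sum_equiv (finCongr (inst_length C l).symm)
    intro i
    have e : (inst C l).get ((finCongr (inst_length C l).symm) i) = ((l.get i : ℕ) : ℚ) / (C : ℚ) := by
      simp only [inst, List.get_eq_getElem, List.getElem_map]
      rfl
    rw [e]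
    rfl
  rw [h2] at h1
  have hCq : (0 : ℚ) < (C : ℚ) := by exact_mod_cast hC
  have h3 : ∑ i : Fin l.length, (if f (Fin.cast (inst_length C l).symm i) = j then
        ((l.get i : ℕ) : ℚ) / (C : ℚ) else 0) =
      ((∑ i : Fin l.length, (if f (Fin.cast (inst_length C l).symm i) = j then
        l.get i else 0) : ℕ) : ℚ) / (C : ℚ) := by
    push_cast
    rw [Finset.sum_div]
    apply Finset.sum_congr rfl
    intro i _
    split_ifs <;> simp
  rw [h3, div_le_one hCq] at h1
  exact_mod_cast h1

/-- The combined infeasibility certificate: `ref` cannot be packed into `K` bins (plain search), and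
the search on `full` with `k` bins fails when every `K`-bin subproblem dominating `ref` is pruned. -/
theorem no_packing_of_search {C : ℕ} (hC : 0 < C) {full ref : List ℕ} {K k : ℕ}
    (h1 : search C (fun _ _ => true) K ref = false)
    (h2 : search C (fun k' l => !(Nat.beq k' K && domBy ref l)) k full = false) :
    ¬ ∃ f : Fin (inst C full).length → Fin k, IsPacking (inst C full) k f := by
  intro h
  have hp := mpack_of_fits (fits_of_packing hC h)
  have href : ¬ MPack C K (ref : Multiset ℕ) := by
    intro hr
    have := search_complete (C := C) (orc := fun _ _ => true) (fun _ _ _ => rfl) K ref hr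
    rw [h1] at this
    exact Bool.false_ne_true this
  have := search_complete (C := C) (orc := fun k' l => !(Nat.beq k' K && domBy ref l)) (by
    intro k' l hl
    by_contra hne
    simp only [Bool.not_eq_true', Bool.and_eq_false_iff, not_or, Bool.not_eq_false,
      Nat.beq_eq] at hne
    obtain ⟨rfl, hd⟩ := hne
    apply href
    have := MPack.of_domBy ref l 0 hd (by simpa using hl)
    simpa using this) k full hp
  rw [h2] at this
  exact Bool.false_ne_true this

end Vale.Agent.Lib.P302
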