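import Vale.Agent.Lib.P302.Checker

set_option autoImplicit false

namespace Vale.Agent.Lib.P302

open Finset

/-- The finitely supported weight function given by a list of weighted configurations. -/
noncomputable def mkZ (l : List (Multiset ℚ × ℝ)) : Multiset ℚ →₀ ℝ :=
  (l.map fun p => Finsupp.single p.1 p.2).sum

theorem mkZ_cons (p : Multiset ℚ × ℝ) (l : List (Multiset ℚ × ℝ)) :
    mkZ (p :: l) = Finsupp.single p.1 p.2 + mkZ l := by
  simp [mkZ]

theorem mkZ_sum (l : List (Multiset ℚ × ℝ)) (g : Multiset ℚ → ℝ) :
    (mkZ l).sum (fun c w => w * g c) = (l.map fun p => p.2 * g p.1).sum := by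
  induction l with
  | nil => simp [mkZ]
  | cons p l ih =>
    rw [mkZ_cons, Finsupp.sum_add_index' (by intro a; simp) (by intro a b c; ring),
      Finsupp.sum_single_index (by simp), ih]
    simp

theorem mkZ_nonneg (l : List (Multiset ℚ × ℝ)) (h : ∀ p ∈ l, 0 ≤ p.2) (c : Multiset ℚ) :
    0 ≤ mkZ l c := by
  induction l with
  | nil => simp [mkZ]
  | cons p l ih =>
    rw [mkZ_cons, Finsupp.add_apply]
    have h1 : 0 ≤ (Finsupp.single p.1 p.2) c := by
      rw [Finsupp.single_apply]
      split_ifs
      · exact h p (by simp)
      · exact le_refl _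
    have h2 := ih (fun q hq => h q (by simp [hq]))
    linarith

theorem mkZ_support (l : List (Multiset ℚ × ℝ)) (c : Multiset ℚ) (hc : c ∈ (mkZ l).support) :
    ∃ p ∈ l, p.1 = c := by
  induction l with
  | nil => simp [mkZ] at hc
  | cons p l ih =>
    rw [Finsupp.mem_support_iff, mkZ_cons, Finsupp.add_apply] at hc
    by_cases h1 : p.1 = c
    · exact ⟨p, by simp, h1⟩
    · have : (Finsupp.single p.1 p.2) c = 0 := by
        rw [Finsupp.single_apply, if_neg h1]
      rw [this, zero_add] at hc
      obtain ⟨q, hq, hqc⟩ := ih (Finsupp.mem_support_iff.mpr hc)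
      exact ⟨q, by simp [hq], hqc⟩

theorem card_filter_get (items : List ℕ) (s : ℕ) :
    (univ.filter fun i : Fin items.length => items.get i = s).card = items.count s := by
  induction items with
  | nil => simp
  | cons x xs ih =>
    have h0 : (univ.filter fun i : Fin (xs.length + 1) => (x :: xs).get i = s).card
        = ∑ i : Fin (xs.length + 1), (if (x :: xs).get i = s then 1 else 0) := by
      rw [Finset.card_filter]
    have h1 : (univ.filter fun i : Fin xs.length => xs.get i = s).card
        = ∑ i : Fin xs.length, (if xs.get i = s then 1 else 0) := by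
      rw [Finset.card_filter]
    change (univ.filter fun i : Fin (xs.length + 1) => (x :: xs).get i = s).card = _
    rw [h0, Fin.sum_univ_succ, List.count_cons, ← ih, h1]
    simp only [List.get_cons_zero, List.get_cons_succ', beq_iff_eq]
    exact Nat.add_comm _ _

theorem list_sum_map_div {K : Type*} [DivisionRing K] {α : Type*} (l : List α) (f : α → K) (c : K) :
    (l.map fun x => f x / c).sum = (l.map f).sum / c := by
  induction l with
  | nil => simp
  | cons x xs ih => simp [ih, add_div]

theorem cast_div_injective (L : ℕ) (hL : 0 < L) :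
    Function.Injective (fun s : ℕ => (s : ℚ) / L) := by
  intro a b hab
  have h2 : (L : ℚ) ≠ 0 := by exact_mod_cast hL.ne'
  have : (a : ℚ) = b := by
    have := congrArg (fun t => t * (L : ℚ)) hab
    simpa [div_mul_cancel₀ _ h2] using this
  exact_mod_cast this

/-- A certificate for an upper bound on the LP value: integer patterns `p.1` with weights
`p.2 / D`. -/
theorem lp_le (L : ℕ) (hL : 0 < L) (items : List ℕ) (h : ∀ x ∈ items, 0 < x ∧ x ≤ L)
    (pats : List (List ℕ × ℕ)) (D : ℕ) (hD : 0 < D)
    (hpat : ∀ p ∈ pats, (∀ s ∈ p.1, s ∈ items) ∧ p.1.sum ≤ L)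
    (hcov : ∀ s ∈ items, D * items.count s ≤ (pats.map fun p => p.2 * p.1.count s).sum) :
    (ofNat L items h).LP ≤ (((pats.map fun p => p.2).sum : ℕ) : ℝ) / D := by
  have hLq : (0 : ℚ) < (L : ℚ) := by exact_mod_cast hL
  have hDr : (0 : ℝ) < (D : ℝ) := by exact_mod_cast hD
  set conv : List ℕ × ℕ → Multiset ℚ × ℝ :=
    fun p => (((p.1.map fun s : ℕ => (s : ℚ) / L : List ℚ) : Multiset ℚ), (p.2 : ℝ) / D) with hconv
  set z := mkZ (pats.map conv) with hz
  have hcover : (ofNat L items h).IsFracCover z := by
    refine ⟨?_, ?_, ?_⟩
    · intro c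
      apply mkZ_nonneg
      intro p hp
      obtain ⟨q, _, rfl⟩ := List.mem_map.mp hp
      simp only [hconv]
      positivity
    · intro c hc
      obtain ⟨p, hp, rfl⟩ := mkZ_support _ c hc
      obtain ⟨q, hq, rfl⟩ := List.mem_map.mp hp
      obtain ⟨hq1, hq2⟩ := hpat q hq
      refine ⟨?_, ?_⟩
      · intro s hs
        simp only [hconv, Multiset.mem_coe, List.mem_map] at hs
        obtain ⟨a, ha, rfl⟩ := hs
        obtain ⟨i, hi⟩ := List.mem_iff_get.mp (hq1 a ha)
        simp only [Inst.sizes, Finset.mem_image, Finset.mem_univ, true_and]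
        refine ⟨i, ?_⟩
        show ((items.get i : ℕ) : ℚ) / L = (a : ℚ) / L
        rw [hi]
      · simp only [hconv, Multiset.sum_coe]
        have : ((q.1.map fun s : ℕ => (s : ℚ) / L).sum) = (q.1.sum : ℚ) / L := by
          rw [list_sum_map_div, Nat.cast_list_sum]
        rw [this, div_le_one hLq]
        exact_mod_cast hq2
    · intro s hs
      simp only [Inst.sizes, Finset.mem_image, Finset.mem_univ, true_and] at hs
      obtain ⟨i, rfl⟩ := hs
      set a := items.get i with ha
      have hmem : a ∈ items := List.get_mem items i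
      have hmult : (ofNat L items h).mult ((ofNat L items h).size i) = items.count a := by
        rw [← card_filter_get]
        show (univ.filter fun j : Fin items.length =>
          ((items.get j : ℕ) : ℚ) / L = ((items.get i : ℕ) : ℚ) / L).card = _
        congr 1
        apply Finset.filter_congr
        intro j _
        constructor
        · intro hj
          exact cast_div_injective L hL hj
        · intro hj
          rw [hj]
      rw [hmult, hz, mkZ_sum, List.map_map]
      have hcount : ∀ p : List ℕ × ℕ,
          (Multiset.count ((ofNat L items h).size i) (conv p).1) = p.1.count a := by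
        intro p
        simp only [hconv, Multiset.coe_count, ofNat]
        exact List.count_map_of_injective p.1 _ (cast_div_injective L hL) a
      have hterm : (List.map ((fun p : Multiset ℚ × ℝ =>
            p.2 * ((Multiset.count ((ofNat L items h).size i) p.1 : ℕ) : ℝ)) ∘ conv) pats).sum
          = (((pats.map fun p => p.2 * p.1.count a).sum : ℕ) : ℝ) / D := by
        rw [Nat.cast_list_sum, List.map_map, ← list_sum_map_div]
        congr 1
        apply List.map_congr_left
        intro p _
        simp only [Function.comp, hcount]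
        simp only [hconv]
        push_cast
        ring
      rw [hterm, le_div_iff₀ hDr]
      have := hcov a hmem
      have h3 : ((D * items.count a : ℕ) : ℝ) ≤ (((pats.map fun p => p.2 * p.1.count a).sum : ℕ) : ℝ) := by
        exact_mod_cast this
      push_cast at h3
      push_cast
      linarith
  have hval : z.sum (fun _ w => w) = (((pats.map fun p => p.2).sum : ℕ) : ℝ) / D := by
    have h1 : z.sum (fun _ w => w) = z.sum (fun c w => w * (fun _ => (1 : ℝ)) c) := by
      simp
    rw [h1, hz, mkZ_sum, List.map_map, Nat.cast_list_sum, List.map_map, ← list_sum_map_div]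
    congr 1
    apply List.map_congr_left
    intro p _
    simp [hconv]
  unfold Inst.LP
  rw [← hval]
  apply csInf_le
  · refine ⟨0, ?_⟩
    rintro v ⟨z', hz', rfl⟩
    exact Finsupp.sum_nonneg (fun c _ => hz'.1 c)
  · exact ⟨z, hcover, rfl⟩

end Vale.Agent.Lib.P302
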