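import Vale.Agent.Lib.P302.Defs

set_option autoImplicit false

namespace Vale.Agent.Lib.P302

open Finset

/-- Items (a list) can be placed one after the other into bins with remaining capacities `caps`. -/
def PacksM : List ℕ → Multiset ℕ → Prop
  | [], _ => True
  | x :: xs, caps => ∃ c ∈ caps, x ≤ c ∧ PacksM xs ((c - x) ::ₘ caps.erase c)

/-- Exhaustive search deciding `PacksM`. -/
def search : List ℕ → List ℕ → Bool
  | [], _ => true
  | x :: xs, caps =>
    caps.dedup.any fun c => decide (x ≤ c) && search xs ((c - x) :: caps.erase c)

theorem search_iff (xs : List ℕ) :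
    ∀ caps : List ℕ, search xs caps = true ↔ PacksM xs (caps : Multiset ℕ) := by
  induction xs with
  | nil => intro caps; simp [search, PacksM]
  | cons x xs ih =>
    intro caps
    simp only [search, PacksM, List.any_eq_true, List.mem_dedup, Bool.and_eq_true,
      decide_eq_true_eq, ih, Multiset.mem_coe, Multiset.coe_erase, Multiset.cons_coe]

theorem map_update_univ {N : ℕ} (cap : Fin N → ℕ) (j0 : Fin N) (v : ℕ) :
    Multiset.map (Function.update cap j0 v) (univ : Finset (Fin N)).val
      = v ::ₘ (Multiset.map cap (univ : Finset (Fin N)).val).erase (cap j0) := by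
  have h1 : (univ : Finset (Fin N)).val = j0 ::ₘ (univ : Finset (Fin N)).val.erase j0 :=
    (Multiset.cons_erase (Finset.mem_univ_val j0)).symm
  have hnd : (univ : Finset (Fin N)).val.Nodup := (univ : Finset (Fin N)).nodup
  have hnot : j0 ∉ (univ : Finset (Fin N)).val.erase j0 := hnd.notMem_erase
  set t := (univ : Finset (Fin N)).val.erase j0 with ht
  rw [h1]
  simp only [Multiset.map_cons, Function.update_self, Multiset.erase_cons_head]
  congr 1
  apply Multiset.map_congr rfl
  intro i hi
  have : i ≠ j0 := fun h => hnot (h ▸ hi)
  simp [Function.update_of_ne this]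

theorem packsM_of_fun (xs : List ℕ) :
    ∀ (N : ℕ) (cap : Fin N → ℕ),
      (∃ f : Fin xs.length → Fin N, ∀ j, ∑ i ∈ univ.filter (fun i => f i = j), xs.get i ≤ cap j) →
      PacksM xs (Multiset.map cap (univ : Finset (Fin N)).val) := by
  induction xs with
  | nil => intro N cap _; trivial
  | cons x xs ih =>
    intro N cap ⟨f, hf⟩
    have hsum : ∀ j, (if f 0 = j then x else 0)
        + ∑ i ∈ univ.filter (fun i : Fin xs.length => f i.succ = j), xs.get i ≤ cap j := by
      intro j
      have h0 : ∑ i : Fin (xs.length + 1), (if f i = j then (x :: xs).get i else 0) ≤ cap j := by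
        have := hf j
        rwa [Finset.sum_filter] at this
      rw [Fin.sum_univ_succ] at h0
      rw [Finset.sum_filter]
      simpa using h0
    refine ⟨cap (f 0), ?_, ?_, ?_⟩
    · exact Multiset.mem_map_of_mem cap (Finset.mem_univ_val _)
    · have := hsum (f 0)
      simp only [if_true] at this
      omega
    · rw [← map_update_univ]
      apply ih
      refine ⟨fun i => f i.succ, ?_⟩
      intro j
      by_cases hj : j = f 0
      · subst hj
        have := hsum (f 0)
        simp only [if_true] at this
        simp only [Function.update_self]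
        omega
      · have := hsum j
        have hne : ¬ (f 0 = j) := fun h => hj h.symm
        simp only [hne, if_false, zero_add] at this
        simpa [Function.update_of_ne hj] using this

/-- The instance with capacity `L` and integer item lengths `items` (sizes `x / L`). -/
def ofNat (L : ℕ) (items : List ℕ) (h : ∀ x ∈ items, 0 < x ∧ x ≤ L) : Inst where
  n := items.length
  size := fun i => (items.get i : ℚ) / L
  size_pos := by
    intro i
    have hx := h _ (List.get_mem items i)
    have hL : 0 < L := lt_of_lt_of_le hx.1 hx.2
    have h1 : (0 : ℚ) < (items.get i : ℚ) := by exact_mod_cast hx.1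
    have h2 : (0 : ℚ) < (L : ℚ) := by exact_mod_cast hL
    exact div_pos h1 h2
  size_le := by
    intro i
    have hx := h _ (List.get_mem items i)
    have hL : 0 < L := lt_of_lt_of_le hx.1 hx.2
    have h2 : (0 : ℚ) < (L : ℚ) := by exact_mod_cast hL
    rw [div_le_one h2]
    exact_mod_cast hx.2

theorem search_of_packable (L : ℕ) (hL : 0 < L) (items : List ℕ)
    (h : ∀ x ∈ items, 0 < x ∧ x ≤ L) (k : ℕ) (hp : (ofNat L items h).Packable k) :
    search items (List.replicate k L) = true := by
  rw [search_iff]
  obtain ⟨f, hf⟩ := hp
  have key := packsM_of_fun items k (fun _ => L) ⟨f, by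
    intro j
    have := hf j
    have h2 : (0 : ℚ) < (L : ℚ) := by exact_mod_cast hL
    simp only [ofNat] at this
    rw [← Finset.sum_div, div_le_one h2] at this
    exact_mod_cast this⟩
  rw [Multiset.map_const'] at key
  simpa [Multiset.coe_replicate] using key

theorem packable_mono (I : Inst) {k N : ℕ} (hkN : k ≤ N) (hp : I.Packable k) : I.Packable N := by
  obtain ⟨f, hf⟩ := hp
  refine ⟨fun i => Fin.castLE hkN (f i), ?_⟩
  intro j
  by_cases hj : j.val < k
  · have : (univ.filter fun i => Fin.castLE hkN (f i) = j)
        = univ.filter fun i => f i = ⟨j.val, hj⟩ := by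
      ext i
      simp only [Finset.mem_filter, Finset.mem_univ, true_and, Fin.ext_iff, Fin.val_castLE]
    rw [this]
    exact hf _
  · have : (univ.filter fun i => Fin.castLE hkN (f i) = j) = ∅ := by
      ext i
      simp only [Finset.mem_filter, Finset.mem_univ, true_and, Fin.ext_iff, Fin.val_castLE,
        Finset.notMem_empty, iff_false]
      intro h
      exact hj (h ▸ (f i).isLt)
    rw [this]
    simp

theorem packable_self (I : Inst) : I.Packable I.n := by
  refine ⟨id, ?_⟩
  intro j
  have : (univ.filter fun i : Fin I.n => id i = j) = {j} := by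
    ext i; simp
  rw [this]
  simpa using I.size_le j

/-- If the search fails with `N` bins then `OPT ≥ N + 1`. -/
theorem opt_ge (L : ℕ) (hL : 0 < L) (items : List ℕ)
    (h : ∀ x ∈ items, 0 < x ∧ x ≤ L) (N : ℕ)
    (hs : search items (List.replicate N L) = false) :
    N + 1 ≤ (ofNat L items h).OPT := by
  unfold Inst.OPT
  apply le_csInf
  · exact ⟨_, packable_self _⟩
  · intro k hk
    by_contra hlt
    have hkN : k ≤ N := by omega
    have := search_of_packable L hL items h N (packable_mono _ hkN hk)
    rw [hs] at this
    exact Bool.false_ne_true this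

end Vale.Agent.Lib.P302
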