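import Mathlib

set_option autoImplicit false

namespace Vale.Agent.Lib.P302

open Finset

/-- A bin packing instance: `n` items with rational sizes in `(0,1]`. -/
structure Inst where
  n : ℕ
  size : Fin n → ℚ
  size_pos : ∀ i, 0 < size i
  size_le : ∀ i, size i ≤ 1

/-- The items can be partitioned into `k` bins, each of total size at most `1`. -/
def Inst.Packable (I : Inst) (k : ℕ) : Prop :=
  ∃ f : Fin I.n → Fin k, ∀ j : Fin k, ∑ i ∈ univ.filter (fun i => f i = j), I.size i ≤ 1

/-- `OPT(I)`: the least number of bins into which the items can be partitioned. -/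
noncomputable def Inst.OPT (I : Inst) : ℕ := sInf {k | I.Packable k}

/-- The set of distinct sizes of the instance. -/
def Inst.sizes (I : Inst) : Finset ℚ := univ.image I.size

/-- The multiplicity of the size `s` in the instance. -/
def Inst.mult (I : Inst) (s : ℚ) : ℕ := (univ.filter (fun i => I.size i = s)).card

/-- A configuration: a multiset of sizes occurring in the instance, of total size at most `1`
(a size may be repeated more often than its multiplicity in the instance). -/
def Inst.IsConfig (I : Inst) (c : Multiset ℚ) : Prop :=
  (∀ s ∈ c, s ∈ I.sizes) ∧ c.sum ≤ 1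

/-- A feasible solution of the Gilmore-Gomory configuration LP: nonnegative weights on
configurations covering every size at least as often as its multiplicity. -/
def Inst.IsFracCover (I : Inst) (z : Multiset ℚ →₀ ℝ) : Prop :=
  (∀ c, 0 ≤ z c) ∧ (∀ c ∈ z.support, I.IsConfig c) ∧
    ∀ s ∈ I.sizes, (I.mult s : ℝ) ≤ z.sum (fun c w => w * (c.count s : ℝ))

/-- `LP(I)`: the optimal value of the configuration LP. -/
noncomputable def Inst.LP (I : Inst) : ℝ :=
  sInf {v | ∃ z : Multiset ℚ →₀ ℝ, I.IsFracCover z ∧ v = z.sum (fun _ w => w)}

end Vale.Agent.Lib.P302
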