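import Vale.Agent.Lib.P302.Cert

set_option autoImplicit false

namespace Vale.Agent.Lib.P302

open Finset

/-! A faster verified infeasibility check: item by item search with a dead space bound,
monotonicity of packability in the capacities, and a cut rule. -/

/-- Sum of the capacities that can still receive an item of size at least `m`. -/
def liveSum (m : ℕ) : List ℕ → ℕ
  | [] => 0
  | c :: cs => cond (Nat.ble m c) (c + liveSum m cs) (liveSum m cs)

theorem liveSum_eq (m : ℕ) (l : List ℕ) :
    liveSum m l = ((l : Multiset ℕ).filter (fun c => m ≤ c)).sum := by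
  induction l with
  | nil => simp [liveSum]
  | cons c cs ih =>
    rw [← Multiset.cons_coe]
    by_cases h : m ≤ c
    · have hb : Nat.ble m c = true := Nat.ble_eq.mpr h
      rw [Multiset.filter_cons_of_pos _ h, Multiset.sum_cons]
      simp only [liveSum, hb, cond_true, ih]
    · have hb : Nat.ble m c = false := by
        cases hq : Nat.ble m c with
        | false => rfl
        | true => exact absurd (Nat.ble_eq.mp hq) h
      rw [Multiset.filter_cons_of_neg _ h]
      simp only [liveSum, hb, cond_false, ih]

theorem packsM_sum_le (m : ℕ) (xs : List ℕ) :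
    ∀ caps : Multiset ℕ, PacksM xs caps → (∀ x ∈ xs, m ≤ x) →
      xs.sum ≤ (caps.filter (fun c => m ≤ c)).sum := by
  induction xs with
  | nil => intro caps _ _; simp
  | cons x xs ih =>
    intro caps hp hm
    obtain ⟨c, hc, hxc, hp'⟩ := hp
    have ih' := ih _ hp' (fun y hy => hm y (List.mem_cons_of_mem _ hy))
    have hmc : m ≤ c := le_trans (hm x (by simp)) hxc
    have h1 : (caps.filter (fun c => m ≤ c)).sum
        = c + ((caps.erase c).filter (fun c => m ≤ c)).sum := by
      conv_lhs => rw [← Multiset.cons_erase hc]
      rw [Multiset.filter_cons_of_pos _ hmc, Multiset.sum_cons]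
    have h2 : ((((c - x) ::ₘ caps.erase c)).filter (fun c => m ≤ c)).sum
        ≤ (c - x) + ((caps.erase c).filter (fun c => m ≤ c)).sum := by
      by_cases h : m ≤ c - x
      · rw [Multiset.filter_cons_of_pos _ h, Multiset.sum_cons]
      · rw [Multiset.filter_cons_of_neg _ h]
        exact Nat.le_add_left _ _
    rw [h1, List.sum_cons]
    omega

/-- Boolean membership test. -/
def elemB (c : ℕ) : List ℕ → Bool
  | [] => false
  | d :: ds => Nat.beq c d || elemB c ds

theorem elemB_iff (c : ℕ) (l : List ℕ) : elemB c l = true ↔ c ∈ l := by
  induction l with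
  | nil => simp [elemB]
  | cons d ds ih => simp [elemB, ih]

theorem elemB_false (c : ℕ) (l : List ℕ) (h : c ∉ l) : elemB c l = false := by
  cases hq : elemB c l with
  | false => rfl
  | true => exact absurd ((elemB_iff c l).mp hq) h

/-- Try to put `x` into each bin (one bin for each distinct capacity). -/
def tryAll (x : ℕ) (k : List ℕ → Bool) : List ℕ → List ℕ → Bool
  | _, [] => false
  | before, c :: after =>
    (!elemB c before && (Nat.ble x c && k ((c - x) :: (before ++ after))))
      || tryAll x k (c :: before) after

theorem coe_middle (before after : List ℕ) (d : ℕ) :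
    ((before ++ d :: after : List ℕ) : Multiset ℕ) = d ::ₘ ((before ++ after : List ℕ) : Multiset ℕ) := by
  rw [Multiset.cons_coe]
  exact Multiset.coe_eq_coe.mpr List.perm_middle

theorem tryAll_complete (x : ℕ) (k : List ℕ → Bool) (P : Multiset ℕ → Prop)
    (hk : ∀ l : List ℕ, P (l : Multiset ℕ) → k l = true) (after : List ℕ) :
    ∀ (before : List ℕ) (c : ℕ), c ∈ after → c ∉ before → x ≤ c →
      P ((c - x) ::ₘ ((before ++ after : List ℕ) : Multiset ℕ).erase c) →
      tryAll x k before after = true := by
  induction after with
  | nil => intro before c hc; simp at hc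
  | cons d after ih =>
    intro before c hc hnb hx hP
    by_cases hdc : d = c
    · subst hdc
      have h1 : elemB d before = false := elemB_false d before hnb
      have h2 : Nat.ble x d = true := Nat.ble_eq.mpr hx
      have h3 : k ((d - x) :: (before ++ after)) = true := by
        apply hk
        rw [coe_middle, Multiset.erase_cons_head] at hP
        rw [← Multiset.cons_coe]
        exact hP
      simp only [tryAll, h1, h2, h3, Bool.not_false, Bool.and_self, Bool.true_or]
    · have hc' : c ∈ after := by
        rcases List.mem_cons.mp hc with h | h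
        · exact absurd h.symm hdc
        · exact h
      have hnb' : c ∉ d :: before := by
        intro h
        rcases List.mem_cons.mp h with h | h
        · exact hdc h.symm
        · exact hnb h
      have hP' : P ((c - x) ::ₘ (((d :: before) ++ after : List ℕ) : Multiset ℕ).erase c) := by
        have : (((d :: before) ++ after : List ℕ) : Multiset ℕ)
            = ((before ++ d :: after : List ℕ) : Multiset ℕ) := by
          rw [coe_middle, List.cons_append, Multiset.cons_coe]
        rw [this]
        exact hP
      have := ih (d :: before) c hc' hnb' hx hP'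
      simp only [tryAll, this, Bool.or_true]

/-- Exhaustive search with the dead space bound (all items are assumed to be at least `m`). -/
def search2 (m : ℕ) : List ℕ → List ℕ → Bool
  | [], _ => true
  | x :: xs, caps => Nat.ble (x + xs.sum) (liveSum m caps) && tryAll x (search2 m xs) [] caps

theorem search2_complete (m : ℕ) (xs : List ℕ) :
    ∀ caps : List ℕ, (∀ x ∈ xs, m ≤ x) → PacksM xs (caps : Multiset ℕ) →
      search2 m xs caps = true := by
  induction xs with
  | nil => intro caps _ _; rfl
  | cons x xs ih =>
    intro caps hm hp
    have hsum := packsM_sum_le m (x :: xs) _ hp hm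
    rw [← liveSum_eq, List.sum_cons] at hsum
    have h1 : Nat.ble (x + xs.sum) (liveSum m caps) = true := Nat.ble_eq.mpr hsum
    obtain ⟨c, hc, hxc, hp'⟩ := hp
    have h2 : tryAll x (search2 m xs) [] caps = true := by
      apply tryAll_complete x (search2 m xs) (fun s => PacksM xs s)
        (fun l hl => ih l (fun y hy => hm y (List.mem_cons_of_mem _ hy)) hl) caps [] c
        (by simpa using hc) (by simp) hxc
      simpa using hp'
    simp only [search2, h1, h2, Bool.and_self]

/-- Packability is monotone in the capacities. -/
theorem packsM_mono (xs : List ℕ) :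
    ∀ s t : Multiset ℕ, Multiset.Rel (fun a b => a ≤ b) s t → PacksM xs s → PacksM xs t := by
  induction xs with
  | nil => intro s t _ _; trivial
  | cons x xs ih =>
    intro s t hrel hp
    obtain ⟨c, hc, hxc, hp'⟩ := hp
    rw [← Multiset.cons_erase hc] at hrel
    obtain ⟨b, t', hcb, hrel', rfl⟩ := Multiset.rel_cons_left.mp hrel
    refine ⟨b, Multiset.mem_cons_self _ _, le_trans hxc hcb, ?_⟩
    rw [Multiset.erase_cons_head]
    exact ih _ _ (Multiset.Rel.cons (Nat.sub_le_sub_right hcb x) hrel') hp'

theorem packsM_tail (x : ℕ) (xs : List ℕ) (s : Multiset ℕ) (hp : PacksM (x :: xs) s) :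
    PacksM xs s := by
  obtain ⟨c, hc, _, hp'⟩ := hp
  apply packsM_mono xs _ s _ hp'
  have h : Multiset.Rel (fun a b => a ≤ b) ((c - x) ::ₘ s.erase c) (c ::ₘ s.erase c) :=
    Multiset.Rel.cons (Nat.sub_le c x) (Multiset.rel_refl_of_refl_on (fun a _ => le_refl a))
  rwa [Multiset.cons_erase hc] at h

theorem packsM_drop (pre post : List ℕ) (s : Multiset ℕ) (hp : PacksM (pre ++ post) s) :
    PacksM post s := by
  induction pre with
  | nil => simpa using hp
  | cons x xs ih =>
    apply ih
    exact packsM_tail x _ s (by simpa using hp)

/-- `k` holds for every way of putting `x` into a bin. -/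
def forAllBins (x : ℕ) (k : List ℕ → Bool) : List ℕ → List ℕ → Bool
  | _, [] => true
  | before, c :: after =>
    (elemB c before || (!Nat.ble x c || k ((c - x) :: (before ++ after))))
      && forAllBins x k (c :: before) after

theorem forAllBins_spec (x : ℕ) (k : List ℕ → Bool) (after : List ℕ) :
    ∀ (before : List ℕ) (c : ℕ), forAllBins x k before after = true → c ∈ after → c ∉ before →
      x ≤ c → ∃ l : List ℕ,
        (l : Multiset ℕ) = (c - x) ::ₘ ((before ++ after : List ℕ) : Multiset ℕ).erase c
          ∧ k l = true := by
  induction after with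
  | nil => intro before c _ hc; simp at hc
  | cons d after ih =>
    intro before c h hc hnb hx
    simp only [forAllBins, Bool.and_eq_true] at h
    by_cases hdc : d = c
    · subst hdc
      have h1 : elemB d before = false := elemB_false d before hnb
      have h2 : Nat.ble x d = true := Nat.ble_eq.mpr hx
      have h3 := h.1
      simp only [h1, h2, Bool.not_true, Bool.false_or] at h3
      refine ⟨(d - x) :: (before ++ after), ?_, h3⟩
      rw [coe_middle, Multiset.erase_cons_head, Multiset.cons_coe]
    · have hc' : c ∈ after := by
        rcases List.mem_cons.mp hc with h | h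
        · exact absurd h.symm hdc
        · exact h
      have hnb' : c ∉ d :: before := by
        intro h
        rcases List.mem_cons.mp h with h | h
        · exact hdc h.symm
        · exact hnb h
      obtain ⟨l, hl, hkl⟩ := ih (d :: before) c h.2 hc' hnb' hx
      refine ⟨l, ?_, hkl⟩
      have : (((d :: before) ++ after : List ℕ) : Multiset ℕ)
          = ((before ++ d :: after : List ℕ) : Multiset ℕ) := by
        rw [coe_middle, List.cons_append, Multiset.cons_coe]
      rw [hl, this]

/-- Every way of placing the items one after the other reaches a state satisfying `Q`. -/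
def cutAll (Q : List ℕ → Bool) : List ℕ → List ℕ → Bool
  | [], caps => Q caps
  | x :: xs, caps => Q caps || forAllBins x (cutAll Q xs) [] caps

theorem cutAll_sound (Q : List ℕ → Bool) (post : List ℕ)
    (hQ : ∀ l : List ℕ, Q l = true → ¬ PacksM post (l : Multiset ℕ)) (pre : List ℕ) :
    ∀ caps : List ℕ, cutAll Q pre caps = true → ¬ PacksM (pre ++ post) (caps : Multiset ℕ) := by
  induction pre with
  | nil => intro caps h; simpa using hQ caps h
  | cons x xs ih =>
    intro caps h hp
    simp only [cutAll, Bool.or_eq_true] at h
    rcases h with h | h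
    · exact hQ caps h (packsM_drop (x :: xs) post _ hp)
    · rw [List.cons_append] at hp
      obtain ⟨c, hc, hxc, hp'⟩ := hp
      obtain ⟨l, hl, hk⟩ := forAllBins_spec x _ caps [] c h (by simpa using hc) (by simp) hxc
      apply ih l hk
      rw [hl]
      simpa using hp'

/-- Pointwise comparison of two lists of the same length. -/
def leAll : List ℕ → List ℕ → Bool
  | [], [] => true
  | a :: as, b :: bs => Nat.ble a b && leAll as bs
  | _, _ => false

theorem leAll_rel : ∀ l1 l2 : List ℕ, leAll l1 l2 = true →
    Multiset.Rel (fun a b => a ≤ b) (l1 : Multiset ℕ) (l2 : Multiset ℕ)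
  | [], [], _ => by
    rw [Multiset.coe_nil]
    exact Multiset.Rel.zero
  | a :: as, b :: bs, h => by
    simp only [leAll, Bool.and_eq_true] at h
    rw [← Multiset.cons_coe, ← Multiset.cons_coe]
    exact Multiset.Rel.cons (Nat.ble_eq.mp h.1) (leAll_rel as bs h.2)
  | [], _ :: _, h => by simp [leAll] at h
  | _ :: _, [], h => by simp [leAll] at h

/-- Insertion into an ascending list. -/
def insertS (a : ℕ) : List ℕ → List ℕ
  | [] => [a]
  | b :: bs => cond (Nat.ble a b) (a :: b :: bs) (b :: insertS a bs)

/-- Insertion sort. -/
def sortS : List ℕ → List ℕ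
  | [] => []
  | a :: as => insertS a (sortS as)

theorem coe_insertS (a : ℕ) (l : List ℕ) :
    ((insertS a l : List ℕ) : Multiset ℕ) = a ::ₘ (l : Multiset ℕ) := by
  induction l with
  | nil => simp [insertS]
  | cons b bs ih =>
    cases hq : Nat.ble a b with
    | true => simp only [insertS, hq, cond_true, Multiset.cons_coe]
    | false =>
      simp only [insertS, hq, cond_false]
      rw [← Multiset.cons_coe, ih, ← Multiset.cons_coe, Multiset.cons_swap]

theorem coe_sortS (l : List ℕ) : ((sortS l : List ℕ) : Multiset ℕ) = (l : Multiset ℕ) := by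
  induction l with
  | nil => rfl
  | cons a as ih => rw [sortS, coe_insertS, ih, Multiset.cons_coe]

/-- The state `l` is dominated by one of the states in `Cs` (which are sorted ascending). -/
def domBy (Cs : List (List ℕ)) (l : List ℕ) : Bool :=
  Cs.any fun C => leAll (sortS l) C

/-- The combined infeasibility criterion. -/
theorem not_packsM_of_checks (m : ℕ) (pre post caps : List ℕ) (Cs : List (List ℕ))
    (hm : ∀ x ∈ post, m ≤ x) (hC : ∀ C ∈ Cs, search2 m post C = false)
    (hcut : cutAll (domBy Cs) pre caps = true) :
    ¬ PacksM (pre ++ post) (caps : Multiset ℕ) := by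
  apply cutAll_sound (domBy Cs) post _ pre caps hcut
  intro l hl hp
  simp only [domBy, List.any_eq_true] at hl
  obtain ⟨C, hCmem, hle⟩ := hl
  have hrel := leAll_rel _ _ hle
  rw [coe_sortS] at hrel
  have := search2_complete m post C hm (packsM_mono post _ _ hrel hp)
  rw [hC C hCmem] at this
  exact Bool.false_ne_true this

theorem not_packsM_of_search (m : ℕ) (post C : List ℕ) (hm : ∀ x ∈ post, m ≤ x)
    (h : search2 m post C = false) : ¬ PacksM post (C : Multiset ℕ) := by
  intro hp
  have := search2_complete m post C hm hp
  rw [h] at this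
  exact Bool.false_ne_true this

/-- The cut criterion with arbitrary infeasible dominating states. -/
theorem not_packsM_of_cut (pre post caps : List ℕ) (Cs : List (List ℕ))
    (hC : ∀ C ∈ Cs, ¬ PacksM post (C : Multiset ℕ))
    (hcut : cutAll (domBy Cs) pre caps = true) :
    ¬ PacksM (pre ++ post) (caps : Multiset ℕ) := by
  apply cutAll_sound (domBy Cs) post _ pre caps hcut
  intro l hl hp
  simp only [domBy, List.any_eq_true] at hl
  obtain ⟨C, hCmem, hle⟩ := hl
  have hrel := leAll_rel _ _ hle
  rw [coe_sortS] at hrel
  exact hC C hCmem (packsM_mono post _ _ hrel hp)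

theorem all_false (l : List (List ℕ)) (f : List ℕ → Bool)
    (h : (l.all fun C => !f C) = true) : ∀ C ∈ l, f C = false := by
  intro C hC
  have := List.all_eq_true.mp h C hC
  simpa using this

theorem packsM_of_packable (L : ℕ) (hL : 0 < L) (items : List ℕ)
    (h : ∀ x ∈ items, 0 < x ∧ x ≤ L) (k : ℕ) (hp : (ofNat L items h).Packable k) :
    PacksM items ((List.replicate k L : List ℕ) : Multiset ℕ) := by
  rw [← search_iff]
  exact search_of_packable L hL items h k hp

/-- If the items cannot be placed into `N` bins then `OPT ≥ N + 1`. -/
theorem opt_ge' (L : ℕ) (hL : 0 < L) (items : List ℕ)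
    (h : ∀ x ∈ items, 0 < x ∧ x ≤ L) (N : ℕ)
    (hs : ¬ PacksM items ((List.replicate N L : List ℕ) : Multiset ℕ)) :
    N + 1 ≤ (ofNat L items h).OPT := by
  unfold Inst.OPT
  apply le_csInf
  · exact ⟨_, packable_self _⟩
  · intro k hk
    by_contra hlt
    have hkN : k ≤ N := by omega
    exact hs (packsM_of_packable L hL items h N (packable_mono _ hkN hk))

end Vale.Agent.Lib.P302
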