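import Mathlib
import Vale.Agent.Lib.P302.Basic

/-!
# P302: checking an explicit fractional solution of the configuration LP
-/

namespace Vale.Agent.Lib.P302

open Finset

/-- check of a fractional solution: each entry is a numerator (over the common denominator `D`)
together with a pattern, written as the list of its sizes with repetition. -/
def lpCheck (C : ℕ) (l : List ℕ) (D : ℕ) (pats : List (ℕ × List ℕ)) : Bool :=
  pats.all (fun p => decide (p.2.sum ≤ C)) &&
  l.all (fun w => decide (D * l.count w ≤ (pats.map (fun p => p.1 * p.2.count w)).sum))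

theorem sum_mul_count_le (S : Finset ℚ) : ∀ L : List ℚ, (∀ a ∈ L, 0 ≤ a) →
    ∑ σ ∈ S, σ * (L.count σ : ℚ) ≤ L.sum := by
  intro L
  induction L with
  | nil => intro _; simp
  | cons a L ih =>
    intro h
    have h0 : 0 ≤ a := h a (by simp)
    have ih' := ih (fun b hb => h b (List.mem_cons_of_mem _ hb))
    have e : ∀ σ : ℚ, σ * ((a :: L).count σ : ℚ) = σ * (L.count σ : ℚ) + (if σ = a then a else 0) := by
      intro σ
      rw [List.count_cons]
      by_cases hσ : σ = a
      · subst hσ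
        simp [mul_add]
      · have : ¬ (a = σ) := fun h => hσ h.symm
        simp [hσ, this]
    simp only [e, Finset.sum_add_distrib, List.sum_cons]
    have h2 : ∑ σ ∈ S, (if σ = a then a else 0) ≤ a := by
      rw [Finset.sum_ite_eq']
      split_ifs
      · exact le_refl _
      · exact h0
    linarith

theorem sum_map_div (C : ℕ) : ∀ P : List ℕ,
    (P.map (fun w : ℕ => (w : ℚ) / (C : ℚ))).sum = ((P.sum : ℕ) : ℚ) / (C : ℚ) := by
  intro P
  induction P with
  | nil => simp
  | cons a P ih => simp [ih, add_div]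

theorem sum_map_weight (D : ℕ) (w : ℕ) : ∀ pats : List (ℕ × List ℕ),
    (pats.map (fun p => ((p.2.count w : ℕ) : ℝ) * ((p.1 : ℝ) / (D : ℝ)))).sum =
      (((pats.map (fun p => p.1 * p.2.count w)).sum : ℕ) : ℝ) / (D : ℝ) := by
  intro pats
  induction pats with
  | nil => simp
  | cons a P ih =>
    simp only [List.map_cons, List.sum_cons, ih]
    push_cast
    ring

theorem sum_map_fst (D : ℕ) : ∀ pats : List (ℕ × List ℕ),
    (pats.map (fun p => ((p.1 : ℝ) / (D : ℝ)))).sum =
      (((pats.map Prod.fst).sum : ℕ) : ℝ) / (D : ℝ) := by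
  intro pats
  induction pats with
  | nil => simp
  | cons a P ih =>
    simp only [List.map_cons, List.sum_cons, ih]
    push_cast
    ring

theorem isLPValue_of_check {C : ℕ} (hC : 0 < C) {l : List ℕ} {D : ℕ} (hD : 0 < D)
    {pats : List (ℕ × List ℕ)} (h : lpCheck C l D pats = true) :
    IsLPValue (inst C l) ((((pats.map Prod.fst).sum : ℕ) : ℝ) / (D : ℝ)) := by
  have hCq : (0 : ℚ) < (C : ℚ) := by exact_mod_cast hC
  have hDr : (0 : ℝ) < (D : ℝ) := by exact_mod_cast hD
  have hinj : Function.Injective (fun w : ℕ => (w : ℚ) / (C : ℚ)) := by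
    intro a b hab
    have : (a : ℚ) = (b : ℚ) := by
      have := congrArg (fun t => t * (C : ℚ)) hab
      simpa [div_mul_cancel₀, hCq.ne'] using this
    exact_mod_cast this
  simp only [lpCheck, Bool.and_eq_true, List.all_eq_true, decide_eq_true_eq] at h
  obtain ⟨hp, hc⟩ := h
  refine ⟨pats.length, fun j σ => ((pats[j.1].2).map (fun w : ℕ => (w : ℚ) / (C : ℚ))).count σ,
    fun j => (pats[j.1].1 : ℝ) / (D : ℝ), ?_, ?_, ?_, ?_⟩
  · intro j
    unfold IsConfig
    refine (sum_mul_count_le _ _ ?_).trans ?_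
    · intro a ha
      obtain ⟨w, -, rfl⟩ := List.mem_map.1 ha
      positivity
    · rw [sum_map_div, div_le_one hCq]
      exact_mod_cast hp _ (List.getElem_mem j.2)
  · intro j
    positivity
  · intro σ hσ
    obtain ⟨w, hw, rfl⟩ := List.mem_map.1 (List.mem_toFinset.1 hσ)
    have e1 : (inst C l).count ((w : ℚ) / (C : ℚ)) = l.count w :=
      List.count_map_of_injective l _ hinj w
    have e2 : ∀ j : Fin pats.length,
        ((pats[j.1].2).map (fun w : ℕ => (w : ℚ) / (C : ℚ))).count ((w : ℚ) / (C : ℚ)) =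
          (pats[j.1].2).count w :=
      fun j => List.count_map_of_injective _ _ hinj w
    simp only [e1, e2]
    rw [Fin.sum_univ_fun_getElem pats
      (fun p => ((p.2.count w : ℕ) : ℝ) * ((p.1 : ℝ) / (D : ℝ))), sum_map_weight,
      le_div_iff₀ hDr]
    have := hc w hw
    rw [mul_comm]
    exact_mod_cast this
  · rw [Fin.sum_univ_fun_getElem pats (fun p => ((p.1 : ℝ) / (D : ℝ))), sum_map_fst]

theorem inst_pos_le {C : ℕ} {l : List ℕ} (h : ∀ x ∈ l, 0 < x ∧ x ≤ C) :
    ∀ a ∈ inst C l, 0 < a ∧ a ≤ 1 := by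
  intro a ha
  obtain ⟨w, hw, rfl⟩ := List.mem_map.1 ha
  obtain ⟨h0, h1⟩ := h w hw
  have hC : (0 : ℚ) < (C : ℚ) := by exact_mod_cast lt_of_lt_of_le h0 h1
  have hw0 : (0 : ℚ) < (w : ℚ) := by exact_mod_cast h0
  refine ⟨by positivity, ?_⟩
  rw [div_le_one hC]
  exact_mod_cast h1

/-- The combined certificate: `k` bins do not suffice, and the LP value is at most `num / D`. -/
theorem gap_of_checks {C : ℕ} (hC : 0 < C) {l : List ℕ} {k m D : ℕ} (hD : 0 < D)
    {pats : List (ℕ × List ℕ)} (hl : ∀ x ∈ l, 0 < x ∧ x ≤ C) (hm : ∀ x ∈ l, m ≤ x)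
    (h1 : place m l (List.replicate k C) = false) (h2 : lpCheck C l D pats = true) :
    ((k : ℝ) + 1) - (((pats.map Prod.fst).sum : ℕ) : ℝ) / (D : ℝ) ≤
      (OPT (inst C l) : ℝ) - LP (inst C l) := by
  have a1 : k < OPT (inst C l) :=
    lt_OPT (fun a ha => (inst_pos_le hl a ha).2) (no_packing hC hm h1)
  have a2 := LP_le (isLPValue_of_check hC hD h2)
  have a3 : ((k : ℝ) + 1) ≤ (OPT (inst C l) : ℝ) := by exact_mod_cast a1
  linarith

end Vale.Agent.Lib.P302
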