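import Vale.Agent.Lib.P302.GapData

set_option autoImplicit false

namespace Vale.Agent.Lib.P302.Gap

theorem cutOK : cutAll (domBy [stateA, stateB]) pre (List.replicate 11 cap) = true := by
  decide +kernel

end Vale.Agent.Lib.P302.Gap
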