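import Vale.Agent.Lib.P302.Fast

set_option autoImplicit false

namespace Vale.Agent.Lib.P302.Gap

/-- Bin capacity (item sizes are `x / cap`). -/
def cap : ℕ := 960000

/-- The gadget: three big items and seven small items. -/
def pre : List ℕ :=
  [710881, 710868, 710860, 124575, 124575, 124567, 124566, 124561, 124559, 124557]

/-- The core: twenty-one items. -/
def post : List ℕ :=
  [582172, 433757, 433004, 431457, 428435, 416344, 415159, 337039, 329299, 324330, 320965,
   317024, 314873, 310784, 270432, 270099, 268690, 265310, 263413, 258525, 257043]

/-- All thirty-one item lengths. -/
def items : List ℕ := pre ++ post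

/-- The fractional solution: patterns with weights in units of `1 / 18`. -/
def pats : List (List ℕ × ℕ) :=
  [([582172, 337039], 18), ([329299, 317024, 310784], 9), ([431457, 268690, 258525], 9),
   ([433757, 433757], 8), ([416344, 416344, 124575], 5), ([415159, 415159, 124575], 9),
   ([433757, 270099, 124575, 124575], 2), ([324330, 324330, 310784], 9),
   ([320965, 320965, 317024], 9), ([329299, 314873, 314873], 9), ([433004, 263413, 263413], 9),
   ([416344, 270099, 270099], 8), ([433004, 268690, 257043], 9), ([428435, 265310, 265310], 9),
   ([428435, 270432, 258525], 9), ([431457, 270432, 257043], 9), ([710881, 124559, 124559], 9),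
   ([710881, 124561, 124557], 9), ([710868, 124575, 124557], 9), ([710868, 124566, 124566], 9),
   ([710860, 124575, 124561], 9), ([710860, 124567, 124567], 9)]

/-- Dominating state: two small items in the same core bin. -/
def stateA : List ℕ :=
  [249140, 249140, 249140, 710886, 960000, 960000, 960000, 960000, 960000, 960000, 960000]

/-- Dominating state: two small items in two different core bins. -/
def stateB : List ℕ :=
  [249140, 249140, 249140, 835443, 835443, 960000, 960000, 960000, 960000, 960000, 960000]

end Vale.Agent.Lib.P302.Gap
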