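import Vale.Agent.Lib.P302.GapStates

set_option autoImplicit false

namespace Vale.Agent.Lib.P302.Gap

theorem chk9 : (grp9.all fun C => !search2 257043 tl5 C) = true := by
  decide +kernel

theorem chk11 : (grp11.all fun C => !search2 257043 tl5 C) = true := by
  decide +kernel

theorem chk18 : (grp18.all fun C => !search2 257043 tl6 C) = true := by
  decide +kernel

theorem chk21 : (grp21.all fun C => !search2 257043 tl6 C) = true := by
  decide +kernel

theorem chk31 : (grp31.all fun C => !search2 257043 tl7 C) = true := by
  decide +kernel

theorem chk33 : (grp33.all fun C => !search2 257043 tl7 C) = true := by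
  decide +kernel

theorem chk34 : (grp34.all fun C => !search2 257043 tl7 C) = true := by
  decide +kernel

theorem chk52 : (grp52.all fun C => !search2 257043 tl8 C) = true := by
  decide +kernel

theorem chk61 : (grp61.all fun C => !search2 257043 tl9 C) = true := by
  decide +kernel

end Vale.Agent.Lib.P302.Gap
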