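import Vale.Agent.Lib.P302.GapStates

set_option autoImplicit false

namespace Vale.Agent.Lib.P302.Gap

theorem chk4 : (grp4.all fun C => !search2 257043 tl4 C) = true := by
  decide +kernel

theorem chk6 : (grp6.all fun C => !search2 257043 tl5 C) = true := by
  decide +kernel

theorem chk24 : (grp24.all fun C => !search2 257043 tl6 C) = true := by
  decide +kernel

theorem chk35 : (grp35.all fun C => !search2 257043 tl7 C) = true := by
  decide +kernel

theorem chk36 : (grp36.all fun C => !search2 257043 tl7 C) = true := by
  decide +kernel

theorem chk44 : (grp44.all fun C => !search2 257043 tl8 C) = true := by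
  decide +kernel

theorem chk47 : (grp47.all fun C => !search2 257043 tl8 C) = true := by
  decide +kernel

theorem chk73 : (grp73.all fun C => !search2 257043 tl10 C) = true := by
  decide +kernel

theorem chk74 : (grp74.all fun C => !search2 257043 tl10 C) = true := by
  decide +kernel

theorem chk77 : (grp77.all fun C => !search2 257043 tl10 C) = true := by
  decide +kernel

end Vale.Agent.Lib.P302.Gap
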