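import Vale.Agent.Lib.P302.GapStates

set_option autoImplicit false

namespace Vale.Agent.Lib.P302.Gap

theorem chk0 : (grp0.all fun C => !search2 257043 tl1 C) = true := by
  decide +kernel

theorem chk1 : (grp1.all fun C => !search2 257043 tl2 C) = true := by
  decide +kernel

theorem chk13 : (grp13.all fun C => !search2 257043 tl5 C) = true := by
  decide +kernel

theorem chk16 : (grp16.all fun C => !search2 257043 tl6 C) = true := by
  decide +kernel

theorem chk22 : (grp22.all fun C => !search2 257043 tl6 C) = true := by
  decide +kernel

theorem chk38 : (grp38.all fun C => !search2 257043 tl7 C) = true := by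
  decide +kernel

theorem chk40 : (grp40.all fun C => !search2 257043 tl7 C) = true := by
  decide +kernel

theorem chk55 : (grp55.all fun C => !search2 257043 tl9 C) = true := by
  decide +kernel

theorem chk60 : (grp60.all fun C => !search2 257043 tl9 C) = true := by
  decide +kernel

theorem chk64 : (grp64.all fun C => !search2 257043 tl9 C) = true := by
  decide +kernel

end Vale.Agent.Lib.P302.Gap
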