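import Vale.Agent.Lib.P302.GapStates

set_option autoImplicit false

namespace Vale.Agent.Lib.P302.Gap

theorem chk8 : (grp8.all fun C => !search2 257043 tl5 C) = true := by
  decide +kernel

theorem chk10 : (grp10.all fun C => !search2 257043 tl5 C) = true := by
  decide +kernel

theorem chk19 : (grp19.all fun C => !search2 257043 tl6 C) = true := by
  decide +kernel

theorem chk20 : (grp20.all fun C => !search2 257043 tl6 C) = true := by
  decide +kernel

theorem chk54 : (grp54.all fun C => !search2 257043 tl9 C) = true := by
  decide +kernel

theorem chk57 : (grp57.all fun C => !search2 257043 tl9 C) = true := by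
  decide +kernel

theorem chk67 : (grp67.all fun C => !search2 257043 tl9 C) = true := by
  decide +kernel

theorem chk70 : (grp70.all fun C => !search2 257043 tl10 C) = true := by
  decide +kernel

theorem chk76 : (grp76.all fun C => !search2 257043 tl10 C) = true := by
  decide +kernel

end Vale.Agent.Lib.P302.Gap
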