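import Vale.Agent.Lib.P302.GapStates

set_option autoImplicit false

namespace Vale.Agent.Lib.P302.Gap

theorem chk3 : (grp3.all fun C => !search2 257043 tl3 C) = true := by
  decide +kernel

theorem chk15 : (grp15.all fun C => !search2 257043 tl5 C) = true := by
  decide +kernel

theorem chk27 : (grp27.all fun C => !search2 257043 tl6 C) = true := by
  decide +kernel

theorem chk28 : (grp28.all fun C => !search2 257043 tl6 C) = true := by
  decide +kernel

theorem chk45 : (grp45.all fun C => !search2 257043 tl8 C) = true := by
  decide +kernel

theorem chk48 : (grp48.all fun C => !search2 257043 tl8 C) = true := by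
  decide +kernel

theorem chk50 : (grp50.all fun C => !search2 257043 tl8 C) = true := by
  decide +kernel

theorem chk59 : (grp59.all fun C => !search2 257043 tl9 C) = true := by
  decide +kernel

theorem chk63 : (grp63.all fun C => !search2 257043 tl9 C) = true := by
  decide +kernel

theorem chk71 : (grp71.all fun C => !search2 257043 tl10 C) = true := by
  decide +kernel

end Vale.Agent.Lib.P302.Gap
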