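import Vale.Agent.Lib.P302.GapStates

set_option autoImplicit false

namespace Vale.Agent.Lib.P302.Gap

theorem chk5 : (grp5.all fun C => !search2 257043 tl4 C) = true := by
  decide +kernel

theorem chk7 : (grp7.all fun C => !search2 257043 tl5 C) = true := by
  decide +kernel

theorem chk23 : (grp23.all fun C => !search2 257043 tl6 C) = true := by
  decide +kernel

theorem chk25 : (grp25.all fun C => !search2 257043 tl6 C) = true := by
  decide +kernel

theorem chk29 : (grp29.all fun C => !search2 257043 tl6 C) = true := by
  decide +kernel

theorem chk41 : (grp41.all fun C => !search2 257043 tl7 C) = true := by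
  decide +kernel

theorem chk49 : (grp49.all fun C => !search2 257043 tl8 C) = true := by
  decide +kernel

theorem chk58 : (grp58.all fun C => !search2 257043 tl9 C) = true := by
  decide +kernel

theorem chk66 : (grp66.all fun C => !search2 257043 tl9 C) = true := by
  decide +kernel

theorem chk75 : (grp75.all fun C => !search2 257043 tl10 C) = true := by
  decide +kernel

end Vale.Agent.Lib.P302.Gap
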