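import Vale.Agent.Lib.P302.GapStates

set_option autoImplicit false

namespace Vale.Agent.Lib.P302.Gap

theorem chk12 : (grp12.all fun C => !search2 257043 tl5 C) = true := by
  decide +kernel

theorem chk26 : (grp26.all fun C => !search2 257043 tl6 C) = true := by
  decide +kernel

theorem chk30 : (grp30.all fun C => !search2 257043 tl6 C) = true := by
  decide +kernel

theorem chk32 : (grp32.all fun C => !search2 257043 tl7 C) = true := by
  decide +kernel

theorem chk39 : (grp39.all fun C => !search2 257043 tl7 C) = true := by
  decide +kernel

theorem chk42 : (grp42.all fun C => !search2 257043 tl8 C) = true := by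
  decide +kernel

theorem chk53 : (grp53.all fun C => !search2 257043 tl8 C) = true := by
  decide +kernel

theorem chk56 : (grp56.all fun C => !search2 257043 tl9 C) = true := by
  decide +kernel

theorem chk62 : (grp62.all fun C => !search2 257043 tl9 C) = true := by
  decide +kernel

theorem chk65 : (grp65.all fun C => !search2 257043 tl9 C) = true := by
  decide +kernel

end Vale.Agent.Lib.P302.Gap
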