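import Vale.Agent.Lib.P302.GapStates

set_option autoImplicit false

namespace Vale.Agent.Lib.P302.Gap

theorem chk2 : (grp2.all fun C => !search2 257043 tl3 C) = true := by
  decide +kernel

theorem chk14 : (grp14.all fun C => !search2 257043 tl5 C) = true := by
  decide +kernel

theorem chk17 : (grp17.all fun C => !search2 257043 tl6 C) = true := by
  decide +kernel

theorem chk37 : (grp37.all fun C => !search2 257043 tl7 C) = true := by
  decide +kernel

theorem chk43 : (grp43.all fun C => !search2 257043 tl8 C) = true := by
  decide +kernel

theorem chk46 : (grp46.all fun C => !search2 257043 tl8 C) = true := by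
  decide +kernel

theorem chk51 : (grp51.all fun C => !search2 257043 tl8 C) = true := by
  decide +kernel

theorem chk68 : (grp68.all fun C => !search2 257043 tl9 C) = true := by
  decide +kernel

theorem chk69 : (grp69.all fun C => !search2 257043 tl9 C) = true := by
  decide +kernel

theorem chk72 : (grp72.all fun C => !search2 257043 tl10 C) = true := by
  decide +kernel

end Vale.Agent.Lib.P302.Gap
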