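import Vale.Agent.Lib.P302.GapL0
import Vale.Agent.Lib.P302.GapL1
import Vale.Agent.Lib.P302.GapL2
import Vale.Agent.Lib.P302.GapL3
import Vale.Agent.Lib.P302.GapL4
import Vale.Agent.Lib.P302.GapL5
import Vale.Agent.Lib.P302.GapL6
import Vale.Agent.Lib.P302.GapL7

set_option autoImplicit false

namespace Vale.Agent.Lib.P302.Gap

theorem h_tl0 : ∀ x ∈ post, 257043 ≤ x := by decide +kernel

theorem h_tl1 : ∀ x ∈ tl1, 257043 ≤ x := by decide +kernel

theorem h_tl2 : ∀ x ∈ tl2, 257043 ≤ x := by decide +kernel

theorem h_tl3 : ∀ x ∈ tl3, 257043 ≤ x := by decide +kernel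

theorem h_tl4 : ∀ x ∈ tl4, 257043 ≤ x := by decide +kernel

theorem h_tl5 : ∀ x ∈ tl5, 257043 ≤ x := by decide +kernel

theorem h_tl6 : ∀ x ∈ tl6, 257043 ≤ x := by decide +kernel

theorem h_tl7 : ∀ x ∈ tl7, 257043 ≤ x := by decide +kernel

theorem h_tl8 : ∀ x ∈ tl8, 257043 ≤ x := by decide +kernel

theorem h_tl9 : ∀ x ∈ tl9, 257043 ≤ x := by decide +kernel

theorem h_tl10 : ∀ x ∈ tl10, 257043 ≤ x := by decide +kernel

theorem node107 : ¬ PacksM tl5 (([249140, 249140, 249140, 377828, 526243, 526996, 528543, 531565, 835443, 835443, 960000] : List ℕ) : Multiset ℕ) := by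
  apply not_packsM_of_cut [416344] tl6 [249140, 249140, 249140, 377828, 526243, 526996, 528543, 531565, 835443, 835443, 960000]
    [[109899, 249140, 249140, 249140, 377828, 526996, 528543, 531565, 835443, 835443, 960000],
     [110652, 249140, 249140, 249140, 377828, 526243, 528543, 531565, 835443, 835443, 960000],
     [112199, 249140, 249140, 249140, 377828, 526243, 526996, 531565, 835443, 835443, 960000],
     [115221, 249140, 249140, 249140, 377828, 526243, 526996, 528543, 835443, 835443, 960000],
     [249140, 249140, 249140, 377828, 419099, 526243, 526996, 528543, 531565, 835443, 960000],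
     [249140, 249140, 249140, 377828, 526243, 526996, 528543, 531565, 543656, 835443, 835443]] _ (by decide +kernel)
  intro C hC
  simp only [List.mem_cons, List.not_mem_nil, or_false] at hC
  rcases hC with rfl | rfl | rfl | rfl | rfl | rfl
  · exact not_packsM_of_search 257043 tl6 _ h_tl6 (all_false _ _ chk29 _ (by decide +kernel))
  · exact not_packsM_of_search 257043 tl6 _ h_tl6 (all_false _ _ chk30 _ (by decide +kernel))
  · exact not_packsM_of_search 257043 tl6 _ h_tl6 (all_false _ _ chk30 _ (by decide +kernel))
  · exact not_packsM_of_search 257043 tl6 _ h_tl6 (all_false _ _ chk30 _ (by decide +kernel))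
  · exact not_packsM_of_search 257043 tl6 _ h_tl6 (all_false _ _ chk17 _ (by decide +kernel))
  · exact not_packsM_of_search 257043 tl6 _ h_tl6 (all_false _ _ chk28 _ (by decide +kernel))

theorem node106 : ¬ PacksM tl6 (([249140, 249140, 249140, 377828, 407008, 419099, 526243, 526996, 528543, 960000, 960000] : List ℕ) : Multiset ℕ) := by
  apply not_packsM_of_cut [415159] tl7 [249140, 249140, 249140, 377828, 407008, 419099, 526243, 526996, 528543, 960000, 960000]
    [[3940, 249140, 249140, 249140, 377828, 407008, 526243, 526996, 528543, 960000, 960000],
     [111084, 249140, 249140, 249140, 377828, 407008, 419099, 526996, 528543, 960000, 960000],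
     [111837, 249140, 249140, 249140, 377828, 407008, 419099, 526243, 528543, 960000, 960000],
     [113384, 249140, 249140, 249140, 377828, 407008, 419099, 526243, 526996, 960000, 960000],
     [249140, 249140, 249140, 377828, 407008, 419099, 526243, 526996, 528543, 544841, 960000]] _ (by decide +kernel)
  intro C hC
  simp only [List.mem_cons, List.not_mem_nil, or_false] at hC
  rcases hC with rfl | rfl | rfl | rfl | rfl
  · exact not_packsM_of_search 257043 tl7 _ h_tl7 (all_false _ _ chk31 _ (by decide +kernel))
  · exact not_packsM_of_search 257043 tl7 _ h_tl7 (all_false _ _ chk40 _ (by decide +kernel))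
  · exact not_packsM_of_search 257043 tl7 _ h_tl7 (all_false _ _ chk40 _ (by decide +kernel))
  · exact not_packsM_of_search 257043 tl7 _ h_tl7 (all_false _ _ chk40 _ (by decide +kernel))
  · exact not_packsM_of_search 257043 tl7 _ h_tl7 (all_false _ _ chk39 _ (by decide +kernel))

theorem node105 : ¬ PacksM tl5 (([249140, 249140, 249140, 377828, 407008, 526243, 526996, 528543, 835443, 960000, 960000] : List ℕ) : Multiset ℕ) := by
  apply not_packsM_of_cut [416344] tl6 [249140, 249140, 249140, 377828, 407008, 526243, 526996, 528543, 835443, 960000, 960000]
    [[109899, 249140, 249140, 249140, 377828, 407008, 526996, 528543, 835443, 960000, 960000],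
     [110652, 249140, 249140, 249140, 377828, 407008, 526243, 528543, 835443, 960000, 960000],
     [112199, 249140, 249140, 249140, 377828, 407008, 526243, 526996, 835443, 960000, 960000],
     [249140, 249140, 249140, 377828, 407008, 419099, 526243, 526996, 528543, 960000, 960000],
     [249140, 249140, 249140, 377828, 407008, 526243, 526996, 528543, 543656, 835443, 960000]] _ (by decide +kernel)
  intro C hC
  simp only [List.mem_cons, List.not_mem_nil, or_false] at hC
  rcases hC with rfl | rfl | rfl | rfl | rfl
  · exact not_packsM_of_search 257043 tl6 _ h_tl6 (all_false _ _ chk27 _ (by decide +kernel))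
  · exact not_packsM_of_search 257043 tl6 _ h_tl6 (all_false _ _ chk28 _ (by decide +kernel))
  · exact not_packsM_of_search 257043 tl6 _ h_tl6 (all_false _ _ chk28 _ (by decide +kernel))
  · exact node106
  · exact not_packsM_of_search 257043 tl6 _ h_tl6 (all_false _ _ chk21 _ (by decide +kernel))

theorem node104 : ¬ PacksM tl5 (([100108, 249140, 249140, 249140, 377828, 526243, 526996, 835443, 835443, 960000, 960000] : List ℕ) : Multiset ℕ) := by
  apply not_packsM_of_cut [416344] tl6 [100108, 249140, 249140, 249140, 377828, 526243, 526996, 835443, 835443, 960000, 960000]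
    [[100108, 109899, 249140, 249140, 249140, 377828, 526996, 835443, 835443, 960000, 960000],
     [100108, 110652, 249140, 249140, 249140, 377828, 526243, 835443, 835443, 960000, 960000],
     [100108, 249140, 249140, 249140, 377828, 419099, 526243, 526996, 835443, 960000, 960000],
     [100108, 249140, 249140, 249140, 377828, 526243, 526996, 543656, 835443, 835443, 960000]] _ (by decide +kernel)
  intro C hC
  simp only [List.mem_cons, List.not_mem_nil, or_false] at hC
  rcases hC with rfl | rfl | rfl | rfl
  · exact not_packsM_of_search 257043 tl6 _ h_tl6 (all_false _ _ chk16 _ (by decide +kernel))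
  · exact not_packsM_of_search 257043 tl6 _ h_tl6 (all_false _ _ chk17 _ (by decide +kernel))
  · exact not_packsM_of_search 257043 tl6 _ h_tl6 (all_false _ _ chk16 _ (by decide +kernel))
  · exact not_packsM_of_search 257043 tl6 _ h_tl6 (all_false _ _ chk22 _ (by decide +kernel))

theorem node103 : ¬ PacksM tl6 (([98561, 249140, 249140, 249140, 377828, 419099, 526243, 528543, 835443, 960000, 960000] : List ℕ) : Multiset ℕ) := by
  apply not_packsM_of_cut [415159] tl7 [98561, 249140, 249140, 249140, 377828, 419099, 526243, 528543, 835443, 960000, 960000]
    [[3940, 98561, 249140, 249140, 249140, 377828, 526243, 528543, 835443, 960000, 960000],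
     [98561, 111084, 249140, 249140, 249140, 377828, 419099, 528543, 835443, 960000, 960000],
     [98561, 113384, 249140, 249140, 249140, 377828, 419099, 526243, 835443, 960000, 960000],
     [98561, 249140, 249140, 249140, 377828, 419099, 420284, 526243, 528543, 960000, 960000],
     [98561, 249140, 249140, 249140, 377828, 419099, 526243, 528543, 544841, 835443, 960000]] _ (by decide +kernel)
  intro C hC
  simp only [List.mem_cons, List.not_mem_nil, or_false] at hC
  rcases hC with rfl | rfl | rfl | rfl | rfl
  · exact not_packsM_of_search 257043 tl7 _ h_tl7 (all_false _ _ chk35 _ (by decide +kernel))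
  · exact not_packsM_of_search 257043 tl7 _ h_tl7 (all_false _ _ chk32 _ (by decide +kernel))
  · exact not_packsM_of_search 257043 tl7 _ h_tl7 (all_false _ _ chk32 _ (by decide +kernel))
  · exact not_packsM_of_search 257043 tl7 _ h_tl7 (all_false _ _ chk35 _ (by decide +kernel))
  · exact not_packsM_of_search 257043 tl7 _ h_tl7 (all_false _ _ chk41 _ (by decide +kernel))

theorem node102 : ¬ PacksM tl5 (([98561, 249140, 249140, 249140, 377828, 526243, 528543, 835443, 835443, 960000, 960000] : List ℕ) : Multiset ℕ) := by
  apply not_packsM_of_cut [416344] tl6 [98561, 249140, 249140, 249140, 377828, 526243, 528543, 835443, 835443, 960000, 960000]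
    [[98561, 109899, 249140, 249140, 249140, 377828, 528543, 835443, 835443, 960000, 960000],
     [98561, 112199, 249140, 249140, 249140, 377828, 526243, 835443, 835443, 960000, 960000],
     [98561, 249140, 249140, 249140, 377828, 419099, 526243, 528543, 835443, 960000, 960000],
     [98561, 249140, 249140, 249140, 377828, 526243, 528543, 543656, 835443, 835443, 960000]] _ (by decide +kernel)
  intro C hC
  simp only [List.mem_cons, List.not_mem_nil, or_false] at hC
  rcases hC with rfl | rfl | rfl | rfl
  · exact not_packsM_of_search 257043 tl6 _ h_tl6 (all_false _ _ chk16 _ (by decide +kernel))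
  · exact not_packsM_of_search 257043 tl6 _ h_tl6 (all_false _ _ chk16 _ (by decide +kernel))
  · exact node103
  · exact not_packsM_of_search 257043 tl6 _ h_tl6 (all_false _ _ chk29 _ (by decide +kernel))

theorem node101 : ¬ PacksM tl6 (([97808, 249140, 249140, 249140, 377828, 419099, 526996, 528543, 835443, 960000, 960000] : List ℕ) : Multiset ℕ) := by
  apply not_packsM_of_cut [415159] tl7 [97808, 249140, 249140, 249140, 377828, 419099, 526996, 528543, 835443, 960000, 960000]
    [[3940, 97808, 249140, 249140, 249140, 377828, 526996, 528543, 835443, 960000, 960000],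
     [97808, 111837, 249140, 249140, 249140, 377828, 419099, 528543, 835443, 960000, 960000],
     [97808, 113384, 249140, 249140, 249140, 377828, 419099, 526996, 835443, 960000, 960000],
     [97808, 249140, 249140, 249140, 377828, 419099, 420284, 526996, 528543, 960000, 960000],
     [97808, 249140, 249140, 249140, 377828, 419099, 526996, 528543, 544841, 835443, 960000]] _ (by decide +kernel)
  intro C hC
  simp only [List.mem_cons, List.not_mem_nil, or_false] at hC
  rcases hC with rfl | rfl | rfl | rfl | rfl
  · exact not_packsM_of_search 257043 tl7 _ h_tl7 (all_false _ _ chk34 _ (by decide +kernel))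
  · exact not_packsM_of_search 257043 tl7 _ h_tl7 (all_false _ _ chk32 _ (by decide +kernel))
  · exact not_packsM_of_search 257043 tl7 _ h_tl7 (all_false _ _ chk32 _ (by decide +kernel))
  · exact not_packsM_of_search 257043 tl7 _ h_tl7 (all_false _ _ chk34 _ (by decide +kernel))
  · exact not_packsM_of_search 257043 tl7 _ h_tl7 (all_false _ _ chk41 _ (by decide +kernel))

theorem node100 : ¬ PacksM tl5 (([97808, 249140, 249140, 249140, 377828, 526996, 528543, 835443, 835443, 960000, 960000] : List ℕ) : Multiset ℕ) := by
  apply not_packsM_of_cut [416344] tl6 [97808, 249140, 249140, 249140, 377828, 526996, 528543, 835443, 835443, 960000, 960000]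
    [[97808, 110652, 249140, 249140, 249140, 377828, 528543, 835443, 835443, 960000, 960000],
     [97808, 112199, 249140, 249140, 249140, 377828, 526996, 835443, 835443, 960000, 960000],
     [97808, 249140, 249140, 249140, 377828, 419099, 526996, 528543, 835443, 960000, 960000],
     [97808, 249140, 249140, 249140, 377828, 526996, 528543, 543656, 835443, 835443, 960000]] _ (by decide +kernel)
  intro C hC
  simp only [List.mem_cons, List.not_mem_nil, or_false] at hC
  rcases hC with rfl | rfl | rfl | rfl
  · exact not_packsM_of_search 257043 tl6 _ h_tl6 (all_false _ _ chk16 _ (by decide +kernel))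
  · exact not_packsM_of_search 257043 tl6 _ h_tl6 (all_false _ _ chk16 _ (by decide +kernel))
  · exact node101
  · exact not_packsM_of_search 257043 tl6 _ h_tl6 (all_false _ _ chk29 _ (by decide +kernel))

theorem node99 : ¬ PacksM tl4 (([249140, 249140, 249140, 377828, 526243, 526996, 528543, 835443, 835443, 960000, 960000] : List ℕ) : Multiset ℕ) := by
  apply not_packsM_of_cut [428435] tl5 [249140, 249140, 249140, 377828, 526243, 526996, 528543, 835443, 835443, 960000, 960000]
    [[97808, 249140, 249140, 249140, 377828, 526996, 528543, 835443, 835443, 960000, 960000],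
     [98561, 249140, 249140, 249140, 377828, 526243, 528543, 835443, 835443, 960000, 960000],
     [100108, 249140, 249140, 249140, 377828, 526243, 526996, 835443, 835443, 960000, 960000],
     [249140, 249140, 249140, 377828, 407008, 526243, 526996, 528543, 835443, 960000, 960000],
     [249140, 249140, 249140, 377828, 526243, 526996, 528543, 531565, 835443, 835443, 960000]] _ (by decide +kernel)
  intro C hC
  simp only [List.mem_cons, List.not_mem_nil, or_false] at hC
  rcases hC with rfl | rfl | rfl | rfl | rfl
  · exact node100
  · exact node102
  · exact node104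
  · exact node105
  · exact node107

theorem node98 : ¬ PacksM tl7 (([3940, 249140, 249140, 249140, 377828, 403986, 526243, 526996, 531565, 960000, 960000] : List ℕ) : Multiset ℕ) := by
  apply not_packsM_of_cut [337039] tl8 [3940, 249140, 249140, 249140, 377828, 403986, 526243, 526996, 531565, 960000, 960000]
    [[3940, 40789, 249140, 249140, 249140, 403986, 526243, 526996, 531565, 960000, 960000],
     [3940, 66947, 249140, 249140, 249140, 377828, 526243, 526996, 531565, 960000, 960000],
     [3940, 189204, 249140, 249140, 249140, 377828, 403986, 526996, 531565, 960000, 960000],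
     [3940, 189957, 249140, 249140, 249140, 377828, 403986, 526243, 531565, 960000, 960000],
     [3940, 194526, 249140, 249140, 249140, 377828, 403986, 526243, 526996, 960000, 960000],
     [3940, 249140, 249140, 249140, 377828, 403986, 526243, 526996, 531565, 622961, 960000]] _ (by decide +kernel)
  intro C hC
  simp only [List.mem_cons, List.not_mem_nil, or_false] at hC
  rcases hC with rfl | rfl | rfl | rfl | rfl | rfl
  · exact not_packsM_of_search 257043 tl8 _ h_tl8 (all_false _ _ chk48 _ (by decide +kernel))
  · exact not_packsM_of_search 257043 tl8 _ h_tl8 (all_false _ _ chk49 _ (by decide +kernel))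
  · exact not_packsM_of_search 257043 tl8 _ h_tl8 (all_false _ _ chk42 _ (by decide +kernel))
  · exact not_packsM_of_search 257043 tl8 _ h_tl8 (all_false _ _ chk42 _ (by decide +kernel))
  · exact not_packsM_of_search 257043 tl8 _ h_tl8 (all_false _ _ chk43 _ (by decide +kernel))
  · exact not_packsM_of_search 257043 tl8 _ h_tl8 (all_false _ _ chk42 _ (by decide +kernel))

theorem node97 : ¬ PacksM tl6 (([249140, 249140, 249140, 377828, 403986, 419099, 526243, 526996, 531565, 960000, 960000] : List ℕ) : Multiset ℕ) := by
  apply not_packsM_of_cut [415159] tl7 [249140, 249140, 249140, 377828, 403986, 419099, 526243, 526996, 531565, 960000, 960000]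
    [[3940, 249140, 249140, 249140, 377828, 403986, 526243, 526996, 531565, 960000, 960000],
     [111084, 249140, 249140, 249140, 377828, 403986, 419099, 526996, 531565, 960000, 960000],
     [111837, 249140, 249140, 249140, 377828, 403986, 419099, 526243, 531565, 960000, 960000],
     [116406, 249140, 249140, 249140, 377828, 403986, 419099, 526243, 526996, 960000, 960000],
     [249140, 249140, 249140, 377828, 403986, 419099, 526243, 526996, 531565, 544841, 960000]] _ (by decide +kernel)
  intro C hC
  simp only [List.mem_cons, List.not_mem_nil, or_false] at hC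
  rcases hC with rfl | rfl | rfl | rfl | rfl
  · exact node98
  · exact not_packsM_of_search 257043 tl7 _ h_tl7 (all_false _ _ chk39 _ (by decide +kernel))
  · exact not_packsM_of_search 257043 tl7 _ h_tl7 (all_false _ _ chk40 _ (by decide +kernel))
  · exact not_packsM_of_search 257043 tl7 _ h_tl7 (all_false _ _ chk39 _ (by decide +kernel))
  · exact not_packsM_of_search 257043 tl7 _ h_tl7 (all_false _ _ chk39 _ (by decide +kernel))

theorem node96 : ¬ PacksM tl5 (([249140, 249140, 249140, 377828, 403986, 526243, 526996, 531565, 835443, 960000, 960000] : List ℕ) : Multiset ℕ) := by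
  apply not_packsM_of_cut [416344] tl6 [249140, 249140, 249140, 377828, 403986, 526243, 526996, 531565, 835443, 960000, 960000]
    [[109899, 249140, 249140, 249140, 377828, 403986, 526996, 531565, 835443, 960000, 960000],
     [110652, 249140, 249140, 249140, 377828, 403986, 526243, 531565, 835443, 960000, 960000],
     [115221, 249140, 249140, 249140, 377828, 403986, 526243, 526996, 835443, 960000, 960000],
     [249140, 249140, 249140, 377828, 403986, 419099, 526243, 526996, 531565, 960000, 960000],
     [249140, 249140, 249140, 377828, 403986, 526243, 526996, 531565, 543656, 835443, 960000]] _ (by decide +kernel)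
  intro C hC
  simp only [List.mem_cons, List.not_mem_nil, or_false] at hC
  rcases hC with rfl | rfl | rfl | rfl | rfl
  · exact not_packsM_of_search 257043 tl6 _ h_tl6 (all_false _ _ chk26 _ (by decide +kernel))
  · exact not_packsM_of_search 257043 tl6 _ h_tl6 (all_false _ _ chk26 _ (by decide +kernel))
  · exact not_packsM_of_search 257043 tl6 _ h_tl6 (all_false _ _ chk27 _ (by decide +kernel))
  · exact node97
  · exact not_packsM_of_search 257043 tl6 _ h_tl6 (all_false _ _ chk20 _ (by decide +kernel))

theorem node95 : ¬ PacksM tl8 (([3940, 98561, 249140, 249140, 249140, 377828, 403986, 526243, 622961, 960000, 960000] : List ℕ) : Multiset ℕ) := by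
  apply not_packsM_of_cut [329299] tl9 [3940, 98561, 249140, 249140, 249140, 377828, 403986, 526243, 622961, 960000, 960000]
    [[3940, 48529, 98561, 249140, 249140, 249140, 403986, 526243, 622961, 960000, 960000],
     [3940, 74687, 98561, 249140, 249140, 249140, 377828, 526243, 622961, 960000, 960000],
     [3940, 98561, 196944, 249140, 249140, 249140, 377828, 403986, 622961, 960000, 960000],
     [3940, 98561, 249140, 249140, 249140, 293662, 377828, 403986, 526243, 960000, 960000],
     [3940, 98561, 249140, 249140, 249140, 377828, 403986, 526243, 622961, 630701, 960000]] _ (by decide +kernel)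
  intro C hC
  simp only [List.mem_cons, List.not_mem_nil, or_false] at hC
  rcases hC with rfl | rfl | rfl | rfl | rfl
  · exact not_packsM_of_search 257043 tl9 _ h_tl9 (all_false _ _ chk67 _ (by decide +kernel))
  · exact not_packsM_of_search 257043 tl9 _ h_tl9 (all_false _ _ chk69 _ (by decide +kernel))
  · exact not_packsM_of_search 257043 tl9 _ h_tl9 (all_false _ _ chk54 _ (by decide +kernel))
  · exact not_packsM_of_search 257043 tl9 _ h_tl9 (all_false _ _ chk66 _ (by decide +kernel))
  · exact not_packsM_of_search 257043 tl9 _ h_tl9 (all_false _ _ chk59 _ (by decide +kernel))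

theorem node94 : ¬ PacksM tl7 (([3940, 98561, 249140, 249140, 249140, 377828, 403986, 526243, 960000, 960000, 960000] : List ℕ) : Multiset ℕ) := by
  apply not_packsM_of_cut [337039] tl8 [3940, 98561, 249140, 249140, 249140, 377828, 403986, 526243, 960000, 960000, 960000]
    [[3940, 40789, 98561, 249140, 249140, 249140, 403986, 526243, 960000, 960000, 960000],
     [3940, 66947, 98561, 249140, 249140, 249140, 377828, 526243, 960000, 960000, 960000],
     [3940, 98561, 189204, 249140, 249140, 249140, 377828, 403986, 960000, 960000, 960000],
     [3940, 98561, 249140, 249140, 249140, 377828, 403986, 526243, 622961, 960000, 960000]] _ (by decide +kernel)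
  intro C hC
  simp only [List.mem_cons, List.not_mem_nil, or_false] at hC
  rcases hC with rfl | rfl | rfl | rfl
  · exact not_packsM_of_search 257043 tl8 _ h_tl8 (all_false _ _ chk52 _ (by decide +kernel))
  · exact not_packsM_of_search 257043 tl8 _ h_tl8 (all_false _ _ chk53 _ (by decide +kernel))
  · exact not_packsM_of_search 257043 tl8 _ h_tl8 (all_false _ _ chk42 _ (by decide +kernel))
  · exact node95

theorem node93 : ¬ PacksM tl6 (([98561, 249140, 249140, 249140, 377828, 403986, 419099, 526243, 960000, 960000, 960000] : List ℕ) : Multiset ℕ) := by
  apply not_packsM_of_cut [415159] tl7 [98561, 249140, 249140, 249140, 377828, 403986, 419099, 526243, 960000, 960000, 960000]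
    [[3940, 98561, 249140, 249140, 249140, 377828, 403986, 526243, 960000, 960000, 960000],
     [98561, 111084, 249140, 249140, 249140, 377828, 403986, 419099, 960000, 960000, 960000],
     [98561, 249140, 249140, 249140, 377828, 403986, 419099, 526243, 544841, 960000, 960000]] _ (by decide +kernel)
  intro C hC
  simp only [List.mem_cons, List.not_mem_nil, or_false] at hC
  rcases hC with rfl | rfl | rfl
  · exact node94
  · exact not_packsM_of_search 257043 tl7 _ h_tl7 (all_false _ _ chk32 _ (by decide +kernel))
  · exact not_packsM_of_search 257043 tl7 _ h_tl7 (all_false _ _ chk38 _ (by decide +kernel))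

theorem node92 : ¬ PacksM tl5 (([98561, 249140, 249140, 249140, 377828, 403986, 526243, 835443, 960000, 960000, 960000] : List ℕ) : Multiset ℕ) := by
  apply not_packsM_of_cut [416344] tl6 [98561, 249140, 249140, 249140, 377828, 403986, 526243, 835443, 960000, 960000, 960000]
    [[98561, 109899, 249140, 249140, 249140, 377828, 403986, 835443, 960000, 960000, 960000],
     [98561, 249140, 249140, 249140, 377828, 403986, 419099, 526243, 960000, 960000, 960000],
     [98561, 249140, 249140, 249140, 377828, 403986, 526243, 543656, 835443, 960000, 960000]] _ (by decide +kernel)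
  intro C hC
  simp only [List.mem_cons, List.not_mem_nil, or_false] at hC
  rcases hC with rfl | rfl | rfl
  · exact not_packsM_of_search 257043 tl6 _ h_tl6 (all_false _ _ chk16 _ (by decide +kernel))
  · exact node93
  · exact not_packsM_of_search 257043 tl6 _ h_tl6 (all_false _ _ chk25 _ (by decide +kernel))

theorem node91 : ¬ PacksM tl8 (([3940, 97808, 249140, 249140, 249140, 377828, 403986, 526996, 622961, 960000, 960000] : List ℕ) : Multiset ℕ) := by
  apply not_packsM_of_cut [329299] tl9 [3940, 97808, 249140, 249140, 249140, 377828, 403986, 526996, 622961, 960000, 960000]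
    [[3940, 48529, 97808, 249140, 249140, 249140, 403986, 526996, 622961, 960000, 960000],
     [3940, 74687, 97808, 249140, 249140, 249140, 377828, 526996, 622961, 960000, 960000],
     [3940, 97808, 197697, 249140, 249140, 249140, 377828, 403986, 622961, 960000, 960000],
     [3940, 97808, 249140, 249140, 249140, 293662, 377828, 403986, 526996, 960000, 960000],
     [3940, 97808, 249140, 249140, 249140, 377828, 403986, 526996, 622961, 630701, 960000]] _ (by decide +kernel)
  intro C hC
  simp only [List.mem_cons, List.not_mem_nil, or_false] at hC
  rcases hC with rfl | rfl | rfl | rfl | rfl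
  · exact not_packsM_of_search 257043 tl9 _ h_tl9 (all_false _ _ chk67 _ (by decide +kernel))
  · exact not_packsM_of_search 257043 tl9 _ h_tl9 (all_false _ _ chk69 _ (by decide +kernel))
  · exact not_packsM_of_search 257043 tl9 _ h_tl9 (all_false _ _ chk54 _ (by decide +kernel))
  · exact not_packsM_of_search 257043 tl9 _ h_tl9 (all_false _ _ chk66 _ (by decide +kernel))
  · exact not_packsM_of_search 257043 tl9 _ h_tl9 (all_false _ _ chk58 _ (by decide +kernel))

theorem node90 : ¬ PacksM tl7 (([3940, 97808, 249140, 249140, 249140, 377828, 403986, 526996, 960000, 960000, 960000] : List ℕ) : Multiset ℕ) := by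
  apply not_packsM_of_cut [337039] tl8 [3940, 97808, 249140, 249140, 249140, 377828, 403986, 526996, 960000, 960000, 960000]
    [[3940, 40789, 97808, 249140, 249140, 249140, 403986, 526996, 960000, 960000, 960000],
     [3940, 66947, 97808, 249140, 249140, 249140, 377828, 526996, 960000, 960000, 960000],
     [3940, 97808, 189957, 249140, 249140, 249140, 377828, 403986, 960000, 960000, 960000],
     [3940, 97808, 249140, 249140, 249140, 377828, 403986, 526996, 622961, 960000, 960000]] _ (by decide +kernel)
  intro C hC
  simp only [List.mem_cons, List.not_mem_nil, or_false] at hC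
  rcases hC with rfl | rfl | rfl | rfl
  · exact not_packsM_of_search 257043 tl8 _ h_tl8 (all_false _ _ chk51 _ (by decide +kernel))
  · exact not_packsM_of_search 257043 tl8 _ h_tl8 (all_false _ _ chk53 _ (by decide +kernel))
  · exact not_packsM_of_search 257043 tl8 _ h_tl8 (all_false _ _ chk42 _ (by decide +kernel))
  · exact node91

theorem node89 : ¬ PacksM tl6 (([97808, 249140, 249140, 249140, 377828, 403986, 419099, 526996, 960000, 960000, 960000] : List ℕ) : Multiset ℕ) := by
  apply not_packsM_of_cut [415159] tl7 [97808, 249140, 249140, 249140, 377828, 403986, 419099, 526996, 960000, 960000, 960000]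
    [[3940, 97808, 249140, 249140, 249140, 377828, 403986, 526996, 960000, 960000, 960000],
     [97808, 111837, 249140, 249140, 249140, 377828, 403986, 419099, 960000, 960000, 960000],
     [97808, 249140, 249140, 249140, 377828, 403986, 419099, 526996, 544841, 960000, 960000]] _ (by decide +kernel)
  intro C hC
  simp only [List.mem_cons, List.not_mem_nil, or_false] at hC
  rcases hC with rfl | rfl | rfl
  · exact node90
  · exact not_packsM_of_search 257043 tl7 _ h_tl7 (all_false _ _ chk32 _ (by decide +kernel))
  · exact not_packsM_of_search 257043 tl7 _ h_tl7 (all_false _ _ chk38 _ (by decide +kernel))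

theorem node88 : ¬ PacksM tl5 (([97808, 249140, 249140, 249140, 377828, 403986, 526996, 835443, 960000, 960000, 960000] : List ℕ) : Multiset ℕ) := by
  apply not_packsM_of_cut [416344] tl6 [97808, 249140, 249140, 249140, 377828, 403986, 526996, 835443, 960000, 960000, 960000]
    [[97808, 110652, 249140, 249140, 249140, 377828, 403986, 835443, 960000, 960000, 960000],
     [97808, 249140, 249140, 249140, 377828, 403986, 419099, 526996, 960000, 960000, 960000],
     [97808, 249140, 249140, 249140, 377828, 403986, 526996, 543656, 835443, 960000, 960000]] _ (by decide +kernel)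
  intro C hC
  simp only [List.mem_cons, List.not_mem_nil, or_false] at hC
  rcases hC with rfl | rfl | rfl
  · exact not_packsM_of_search 257043 tl6 _ h_tl6 (all_false _ _ chk16 _ (by decide +kernel))
  · exact node89
  · exact not_packsM_of_search 257043 tl6 _ h_tl6 (all_false _ _ chk24 _ (by decide +kernel))

theorem node87 : ¬ PacksM tl4 (([249140, 249140, 249140, 377828, 403986, 526243, 526996, 835443, 960000, 960000, 960000] : List ℕ) : Multiset ℕ) := by
  apply not_packsM_of_cut [428435] tl5 [249140, 249140, 249140, 377828, 403986, 526243, 526996, 835443, 960000, 960000, 960000]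
    [[97808, 249140, 249140, 249140, 377828, 403986, 526996, 835443, 960000, 960000, 960000],
     [98561, 249140, 249140, 249140, 377828, 403986, 526243, 835443, 960000, 960000, 960000],
     [249140, 249140, 249140, 377828, 403986, 407008, 526243, 526996, 960000, 960000, 960000],
     [249140, 249140, 249140, 377828, 403986, 526243, 526996, 531565, 835443, 960000, 960000]] _ (by decide +kernel)
  intro C hC
  simp only [List.mem_cons, List.not_mem_nil, or_false] at hC
  rcases hC with rfl | rfl | rfl | rfl
  · exact node88
  · exact node92
  · exact not_packsM_of_search 257043 tl5 _ h_tl5 (all_false _ _ chk7 _ (by decide +kernel))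
  · exact node96

theorem node86 : ¬ PacksM tl6 (([95539, 249140, 249140, 249140, 377828, 419099, 526243, 531565, 835443, 960000, 960000] : List ℕ) : Multiset ℕ) := by
  apply not_packsM_of_cut [415159] tl7 [95539, 249140, 249140, 249140, 377828, 419099, 526243, 531565, 835443, 960000, 960000]
    [[3940, 95539, 249140, 249140, 249140, 377828, 526243, 531565, 835443, 960000, 960000],
     [95539, 111084, 249140, 249140, 249140, 377828, 419099, 531565, 835443, 960000, 960000],
     [95539, 116406, 249140, 249140, 249140, 377828, 419099, 526243, 835443, 960000, 960000],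
     [95539, 249140, 249140, 249140, 377828, 419099, 420284, 526243, 531565, 960000, 960000],
     [95539, 249140, 249140, 249140, 377828, 419099, 526243, 531565, 544841, 835443, 960000]] _ (by decide +kernel)
  intro C hC
  simp only [List.mem_cons, List.not_mem_nil, or_false] at hC
  rcases hC with rfl | rfl | rfl | rfl | rfl
  · exact not_packsM_of_search 257043 tl7 _ h_tl7 (all_false _ _ chk33 _ (by decide +kernel))
  · exact not_packsM_of_search 257043 tl7 _ h_tl7 (all_false _ _ chk32 _ (by decide +kernel))
  · exact not_packsM_of_search 257043 tl7 _ h_tl7 (all_false _ _ chk32 _ (by decide +kernel))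
  · exact not_packsM_of_search 257043 tl7 _ h_tl7 (all_false _ _ chk33 _ (by decide +kernel))
  · exact not_packsM_of_search 257043 tl7 _ h_tl7 (all_false _ _ chk41 _ (by decide +kernel))

theorem node85 : ¬ PacksM tl5 (([95539, 249140, 249140, 249140, 377828, 526243, 531565, 835443, 835443, 960000, 960000] : List ℕ) : Multiset ℕ) := by
  apply not_packsM_of_cut [416344] tl6 [95539, 249140, 249140, 249140, 377828, 526243, 531565, 835443, 835443, 960000, 960000]
    [[95539, 109899, 249140, 249140, 249140, 377828, 531565, 835443, 835443, 960000, 960000],
     [95539, 115221, 249140, 249140, 249140, 377828, 526243, 835443, 835443, 960000, 960000],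
     [95539, 249140, 249140, 249140, 377828, 419099, 526243, 531565, 835443, 960000, 960000],
     [95539, 249140, 249140, 249140, 377828, 526243, 531565, 543656, 835443, 835443, 960000]] _ (by decide +kernel)
  intro C hC
  simp only [List.mem_cons, List.not_mem_nil, or_false] at hC
  rcases hC with rfl | rfl | rfl | rfl
  · exact not_packsM_of_search 257043 tl6 _ h_tl6 (all_false _ _ chk16 _ (by decide +kernel))
  · exact not_packsM_of_search 257043 tl6 _ h_tl6 (all_false _ _ chk16 _ (by decide +kernel))
  · exact node86
  · exact not_packsM_of_search 257043 tl6 _ h_tl6 (all_false _ _ chk29 _ (by decide +kernel))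

theorem node84 : ¬ PacksM tl8 (([3940, 95539, 249140, 249140, 249140, 377828, 407008, 526243, 622961, 960000, 960000] : List ℕ) : Multiset ℕ) := by
  apply not_packsM_of_cut [329299] tl9 [3940, 95539, 249140, 249140, 249140, 377828, 407008, 526243, 622961, 960000, 960000]
    [[3940, 48529, 95539, 249140, 249140, 249140, 407008, 526243, 622961, 960000, 960000],
     [3940, 77709, 95539, 249140, 249140, 249140, 377828, 526243, 622961, 960000, 960000],
     [3940, 95539, 196944, 249140, 249140, 249140, 377828, 407008, 622961, 960000, 960000],
     [3940, 95539, 249140, 249140, 249140, 293662, 377828, 407008, 526243, 960000, 960000],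
     [3940, 95539, 249140, 249140, 249140, 377828, 407008, 526243, 622961, 630701, 960000]] _ (by decide +kernel)
  intro C hC
  simp only [List.mem_cons, List.not_mem_nil, or_false] at hC
  rcases hC with rfl | rfl | rfl | rfl | rfl
  · exact not_packsM_of_search 257043 tl9 _ h_tl9 (all_false _ _ chk67 _ (by decide +kernel))
  · exact not_packsM_of_search 257043 tl9 _ h_tl9 (all_false _ _ chk68 _ (by decide +kernel))
  · exact not_packsM_of_search 257043 tl9 _ h_tl9 (all_false _ _ chk54 _ (by decide +kernel))
  · exact not_packsM_of_search 257043 tl9 _ h_tl9 (all_false _ _ chk66 _ (by decide +kernel))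
  · exact not_packsM_of_search 257043 tl9 _ h_tl9 (all_false _ _ chk57 _ (by decide +kernel))

theorem node83 : ¬ PacksM tl7 (([3940, 95539, 249140, 249140, 249140, 377828, 407008, 526243, 960000, 960000, 960000] : List ℕ) : Multiset ℕ) := by
  apply not_packsM_of_cut [337039] tl8 [3940, 95539, 249140, 249140, 249140, 377828, 407008, 526243, 960000, 960000, 960000]
    [[3940, 40789, 95539, 249140, 249140, 249140, 407008, 526243, 960000, 960000, 960000],
     [3940, 69969, 95539, 249140, 249140, 249140, 377828, 526243, 960000, 960000, 960000],
     [3940, 95539, 189204, 249140, 249140, 249140, 377828, 407008, 960000, 960000, 960000],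
     [3940, 95539, 249140, 249140, 249140, 377828, 407008, 526243, 622961, 960000, 960000]] _ (by decide +kernel)
  intro C hC
  simp only [List.mem_cons, List.not_mem_nil, or_false] at hC
  rcases hC with rfl | rfl | rfl | rfl
  · exact not_packsM_of_search 257043 tl8 _ h_tl8 (all_false _ _ chk51 _ (by decide +kernel))
  · exact not_packsM_of_search 257043 tl8 _ h_tl8 (all_false _ _ chk53 _ (by decide +kernel))
  · exact not_packsM_of_search 257043 tl8 _ h_tl8 (all_false _ _ chk42 _ (by decide +kernel))
  · exact node84

theorem node82 : ¬ PacksM tl6 (([95539, 249140, 249140, 249140, 377828, 407008, 419099, 526243, 960000, 960000, 960000] : List ℕ) : Multiset ℕ) := by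
  apply not_packsM_of_cut [415159] tl7 [95539, 249140, 249140, 249140, 377828, 407008, 419099, 526243, 960000, 960000, 960000]
    [[3940, 95539, 249140, 249140, 249140, 377828, 407008, 526243, 960000, 960000, 960000],
     [95539, 111084, 249140, 249140, 249140, 377828, 407008, 419099, 960000, 960000, 960000],
     [95539, 249140, 249140, 249140, 377828, 407008, 419099, 526243, 544841, 960000, 960000]] _ (by decide +kernel)
  intro C hC
  simp only [List.mem_cons, List.not_mem_nil, or_false] at hC
  rcases hC with rfl | rfl | rfl
  · exact node83
  · exact not_packsM_of_search 257043 tl7 _ h_tl7 (all_false _ _ chk31 _ (by decide +kernel))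
  · exact not_packsM_of_search 257043 tl7 _ h_tl7 (all_false _ _ chk37 _ (by decide +kernel))

theorem node81 : ¬ PacksM tl5 (([95539, 249140, 249140, 249140, 377828, 407008, 526243, 835443, 960000, 960000, 960000] : List ℕ) : Multiset ℕ) := by
  apply not_packsM_of_cut [416344] tl6 [95539, 249140, 249140, 249140, 377828, 407008, 526243, 835443, 960000, 960000, 960000]
    [[95539, 109899, 249140, 249140, 249140, 377828, 407008, 835443, 960000, 960000, 960000],
     [95539, 249140, 249140, 249140, 377828, 407008, 419099, 526243, 960000, 960000, 960000],
     [95539, 249140, 249140, 249140, 377828, 407008, 526243, 543656, 835443, 960000, 960000]] _ (by decide +kernel)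
  intro C hC
  simp only [List.mem_cons, List.not_mem_nil, or_false] at hC
  rcases hC with rfl | rfl | rfl
  · exact not_packsM_of_search 257043 tl6 _ h_tl6 (all_false _ _ chk16 _ (by decide +kernel))
  · exact node82
  · exact not_packsM_of_search 257043 tl6 _ h_tl6 (all_false _ _ chk23 _ (by decide +kernel))

theorem node80 : ¬ PacksM tl4 (([95539, 249140, 249140, 249140, 377828, 526243, 835443, 835443, 960000, 960000, 960000] : List ℕ) : Multiset ℕ) := by
  apply not_packsM_of_cut [428435] tl5 [95539, 249140, 249140, 249140, 377828, 526243, 835443, 835443, 960000, 960000, 960000]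
    [[95539, 97808, 249140, 249140, 249140, 377828, 835443, 835443, 960000, 960000, 960000],
     [95539, 249140, 249140, 249140, 377828, 407008, 526243, 835443, 960000, 960000, 960000],
     [95539, 249140, 249140, 249140, 377828, 526243, 531565, 835443, 835443, 960000, 960000]] _ (by decide +kernel)
  intro C hC
  simp only [List.mem_cons, List.not_mem_nil, or_false] at hC
  rcases hC with rfl | rfl | rfl
  · exact not_packsM_of_search 257043 tl5 _ h_tl5 (all_false _ _ chk6 _ (by decide +kernel))
  · exact node81
  · exact node85

theorem node79 : ¬ PacksM tl6 (([94786, 249140, 249140, 249140, 377828, 419099, 526996, 531565, 835443, 960000, 960000] : List ℕ) : Multiset ℕ) := by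
  apply not_packsM_of_cut [415159] tl7 [94786, 249140, 249140, 249140, 377828, 419099, 526996, 531565, 835443, 960000, 960000]
    [[3940, 94786, 249140, 249140, 249140, 377828, 526996, 531565, 835443, 960000, 960000],
     [94786, 111837, 249140, 249140, 249140, 377828, 419099, 531565, 835443, 960000, 960000],
     [94786, 116406, 249140, 249140, 249140, 377828, 419099, 526996, 835443, 960000, 960000],
     [94786, 249140, 249140, 249140, 377828, 419099, 420284, 526996, 531565, 960000, 960000],
     [94786, 249140, 249140, 249140, 377828, 419099, 526996, 531565, 544841, 835443, 960000]] _ (by decide +kernel)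
  intro C hC
  simp only [List.mem_cons, List.not_mem_nil, or_false] at hC
  rcases hC with rfl | rfl | rfl | rfl | rfl
  · exact not_packsM_of_search 257043 tl7 _ h_tl7 (all_false _ _ chk32 _ (by decide +kernel))
  · exact not_packsM_of_search 257043 tl7 _ h_tl7 (all_false _ _ chk31 _ (by decide +kernel))
  · exact not_packsM_of_search 257043 tl7 _ h_tl7 (all_false _ _ chk31 _ (by decide +kernel))
  · exact not_packsM_of_search 257043 tl7 _ h_tl7 (all_false _ _ chk32 _ (by decide +kernel))
  · exact not_packsM_of_search 257043 tl7 _ h_tl7 (all_false _ _ chk40 _ (by decide +kernel))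

theorem node78 : ¬ PacksM tl5 (([94786, 249140, 249140, 249140, 377828, 526996, 531565, 835443, 835443, 960000, 960000] : List ℕ) : Multiset ℕ) := by
  apply not_packsM_of_cut [416344] tl6 [94786, 249140, 249140, 249140, 377828, 526996, 531565, 835443, 835443, 960000, 960000]
    [[94786, 110652, 249140, 249140, 249140, 377828, 531565, 835443, 835443, 960000, 960000],
     [94786, 115221, 249140, 249140, 249140, 377828, 526996, 835443, 835443, 960000, 960000],
     [94786, 249140, 249140, 249140, 377828, 419099, 526996, 531565, 835443, 960000, 960000],
     [94786, 249140, 249140, 249140, 377828, 526996, 531565, 543656, 835443, 835443, 960000]] _ (by decide +kernel)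
  intro C hC
  simp only [List.mem_cons, List.not_mem_nil, or_false] at hC
  rcases hC with rfl | rfl | rfl | rfl
  · exact not_packsM_of_search 257043 tl6 _ h_tl6 (all_false _ _ chk16 _ (by decide +kernel))
  · exact not_packsM_of_search 257043 tl6 _ h_tl6 (all_false _ _ chk16 _ (by decide +kernel))
  · exact node79
  · exact not_packsM_of_search 257043 tl6 _ h_tl6 (all_false _ _ chk29 _ (by decide +kernel))

theorem node77 : ¬ PacksM tl8 (([3940, 94786, 249140, 249140, 249140, 377828, 407008, 526996, 622961, 960000, 960000] : List ℕ) : Multiset ℕ) := by
  apply not_packsM_of_cut [329299] tl9 [3940, 94786, 249140, 249140, 249140, 377828, 407008, 526996, 622961, 960000, 960000]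
    [[3940, 48529, 94786, 249140, 249140, 249140, 407008, 526996, 622961, 960000, 960000],
     [3940, 77709, 94786, 249140, 249140, 249140, 377828, 526996, 622961, 960000, 960000],
     [3940, 94786, 197697, 249140, 249140, 249140, 377828, 407008, 622961, 960000, 960000],
     [3940, 94786, 249140, 249140, 249140, 293662, 377828, 407008, 526996, 960000, 960000],
     [3940, 94786, 249140, 249140, 249140, 377828, 407008, 526996, 622961, 630701, 960000]] _ (by decide +kernel)
  intro C hC
  simp only [List.mem_cons, List.not_mem_nil, or_false] at hC
  rcases hC with rfl | rfl | rfl | rfl | rfl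
  · exact not_packsM_of_search 257043 tl9 _ h_tl9 (all_false _ _ chk65 _ (by decide +kernel))
  · exact not_packsM_of_search 257043 tl9 _ h_tl9 (all_false _ _ chk66 _ (by decide +kernel))
  · exact not_packsM_of_search 257043 tl9 _ h_tl9 (all_false _ _ chk54 _ (by decide +kernel))
  · exact not_packsM_of_search 257043 tl9 _ h_tl9 (all_false _ _ chk66 _ (by decide +kernel))
  · exact not_packsM_of_search 257043 tl9 _ h_tl9 (all_false _ _ chk56 _ (by decide +kernel))

theorem node76 : ¬ PacksM tl7 (([3940, 94786, 249140, 249140, 249140, 377828, 407008, 526996, 960000, 960000, 960000] : List ℕ) : Multiset ℕ) := by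
  apply not_packsM_of_cut [337039] tl8 [3940, 94786, 249140, 249140, 249140, 377828, 407008, 526996, 960000, 960000, 960000]
    [[3940, 40789, 94786, 249140, 249140, 249140, 407008, 526996, 960000, 960000, 960000],
     [3940, 69969, 94786, 249140, 249140, 249140, 377828, 526996, 960000, 960000, 960000],
     [3940, 94786, 189957, 249140, 249140, 249140, 377828, 407008, 960000, 960000, 960000],
     [3940, 94786, 249140, 249140, 249140, 377828, 407008, 526996, 622961, 960000, 960000]] _ (by decide +kernel)
  intro C hC
  simp only [List.mem_cons, List.not_mem_nil, or_false] at hC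
  rcases hC with rfl | rfl | rfl | rfl
  · exact not_packsM_of_search 257043 tl8 _ h_tl8 (all_false _ _ chk42 _ (by decide +kernel))
  · exact not_packsM_of_search 257043 tl8 _ h_tl8 (all_false _ _ chk52 _ (by decide +kernel))
  · exact not_packsM_of_search 257043 tl8 _ h_tl8 (all_false _ _ chk42 _ (by decide +kernel))
  · exact node77

theorem node75 : ¬ PacksM tl6 (([94786, 249140, 249140, 249140, 377828, 407008, 419099, 526996, 960000, 960000, 960000] : List ℕ) : Multiset ℕ) := by
  apply not_packsM_of_cut [415159] tl7 [94786, 249140, 249140, 249140, 377828, 407008, 419099, 526996, 960000, 960000, 960000]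
    [[3940, 94786, 249140, 249140, 249140, 377828, 407008, 526996, 960000, 960000, 960000],
     [94786, 111837, 249140, 249140, 249140, 377828, 407008, 419099, 960000, 960000, 960000],
     [94786, 249140, 249140, 249140, 377828, 407008, 419099, 526996, 544841, 960000, 960000]] _ (by decide +kernel)
  intro C hC
  simp only [List.mem_cons, List.not_mem_nil, or_false] at hC
  rcases hC with rfl | rfl | rfl
  · exact node76
  · exact not_packsM_of_search 257043 tl7 _ h_tl7 (all_false _ _ chk31 _ (by decide +kernel))
  · exact not_packsM_of_search 257043 tl7 _ h_tl7 (all_false _ _ chk37 _ (by decide +kernel))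

theorem node74 : ¬ PacksM tl5 (([94786, 249140, 249140, 249140, 377828, 407008, 526996, 835443, 960000, 960000, 960000] : List ℕ) : Multiset ℕ) := by
  apply not_packsM_of_cut [416344] tl6 [94786, 249140, 249140, 249140, 377828, 407008, 526996, 835443, 960000, 960000, 960000]
    [[94786, 110652, 249140, 249140, 249140, 377828, 407008, 835443, 960000, 960000, 960000],
     [94786, 249140, 249140, 249140, 377828, 407008, 419099, 526996, 960000, 960000, 960000],
     [94786, 249140, 249140, 249140, 377828, 407008, 526996, 543656, 835443, 960000, 960000]] _ (by decide +kernel)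
  intro C hC
  simp only [List.mem_cons, List.not_mem_nil, or_false] at hC
  rcases hC with rfl | rfl | rfl
  · exact not_packsM_of_search 257043 tl6 _ h_tl6 (all_false _ _ chk16 _ (by decide +kernel))
  · exact node75
  · exact not_packsM_of_search 257043 tl6 _ h_tl6 (all_false _ _ chk22 _ (by decide +kernel))

theorem node73 : ¬ PacksM tl4 (([94786, 249140, 249140, 249140, 377828, 526996, 835443, 835443, 960000, 960000, 960000] : List ℕ) : Multiset ℕ) := by
  apply not_packsM_of_cut [428435] tl5 [94786, 249140, 249140, 249140, 377828, 526996, 835443, 835443, 960000, 960000, 960000]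
    [[94786, 98561, 249140, 249140, 249140, 377828, 835443, 835443, 960000, 960000, 960000],
     [94786, 249140, 249140, 249140, 377828, 407008, 526996, 835443, 960000, 960000, 960000],
     [94786, 249140, 249140, 249140, 377828, 526996, 531565, 835443, 835443, 960000, 960000]] _ (by decide +kernel)
  intro C hC
  simp only [List.mem_cons, List.not_mem_nil, or_false] at hC
  rcases hC with rfl | rfl | rfl
  · exact not_packsM_of_search 257043 tl5 _ h_tl5 (all_false _ _ chk6 _ (by decide +kernel))
  · exact node74
  · exact node78

theorem node72 : ¬ PacksM tl3 (([249140, 249140, 249140, 377828, 526243, 526996, 835443, 835443, 960000, 960000, 960000] : List ℕ) : Multiset ℕ) := by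
  apply not_packsM_of_cut [431457] tl4 [249140, 249140, 249140, 377828, 526243, 526996, 835443, 835443, 960000, 960000, 960000]
    [[94786, 249140, 249140, 249140, 377828, 526996, 835443, 835443, 960000, 960000, 960000],
     [95539, 249140, 249140, 249140, 377828, 526243, 835443, 835443, 960000, 960000, 960000],
     [249140, 249140, 249140, 377828, 403986, 526243, 526996, 835443, 960000, 960000, 960000],
     [249140, 249140, 249140, 377828, 526243, 526996, 528543, 835443, 835443, 960000, 960000]] _ (by decide +kernel)
  intro C hC
  simp only [List.mem_cons, List.not_mem_nil, or_false] at hC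
  rcases hC with rfl | rfl | rfl | rfl
  · exact node73
  · exact node80
  · exact node87
  · exact node99

theorem node71 : ¬ PacksM tl8 (([3940, 249140, 249140, 249140, 377828, 402439, 526243, 528543, 531565, 622961, 960000] : List ℕ) : Multiset ℕ) := by
  apply not_packsM_of_cut [329299] tl9 [3940, 249140, 249140, 249140, 377828, 402439, 526243, 528543, 531565, 622961, 960000]
    [[3940, 48529, 249140, 249140, 249140, 402439, 526243, 528543, 531565, 622961, 960000],
     [3940, 73140, 249140, 249140, 249140, 377828, 526243, 528543, 531565, 622961, 960000],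
     [3940, 196944, 249140, 249140, 249140, 377828, 402439, 528543, 531565, 622961, 960000],
     [3940, 199244, 249140, 249140, 249140, 377828, 402439, 526243, 531565, 622961, 960000],
     [3940, 202266, 249140, 249140, 249140, 377828, 402439, 526243, 528543, 622961, 960000],
     [3940, 249140, 249140, 249140, 293662, 377828, 402439, 526243, 528543, 531565, 960000],
     [3940, 249140, 249140, 249140, 377828, 402439, 526243, 528543, 531565, 622961, 630701]] _ (by decide +kernel)
  intro C hC
  simp only [List.mem_cons, List.not_mem_nil, or_false] at hC
  rcases hC with rfl | rfl | rfl | rfl | rfl | rfl | rfl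
  · exact not_packsM_of_search 257043 tl9 _ h_tl9 (all_false _ _ chk59 _ (by decide +kernel))
  · exact not_packsM_of_search 257043 tl9 _ h_tl9 (all_false _ _ chk63 _ (by decide +kernel))
  · exact not_packsM_of_search 257043 tl9 _ h_tl9 (all_false _ _ chk54 _ (by decide +kernel))
  · exact not_packsM_of_search 257043 tl9 _ h_tl9 (all_false _ _ chk54 _ (by decide +kernel))
  · exact not_packsM_of_search 257043 tl9 _ h_tl9 (all_false _ _ chk54 _ (by decide +kernel))
  · exact not_packsM_of_search 257043 tl9 _ h_tl9 (all_false _ _ chk63 _ (by decide +kernel))
  · exact not_packsM_of_search 257043 tl9 _ h_tl9 (all_false _ _ chk65 _ (by decide +kernel))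

theorem node70 : ¬ PacksM tl7 (([3940, 249140, 249140, 249140, 377828, 402439, 526243, 528543, 531565, 960000, 960000] : List ℕ) : Multiset ℕ) := by
  apply not_packsM_of_cut [337039] tl8 [3940, 249140, 249140, 249140, 377828, 402439, 526243, 528543, 531565, 960000, 960000]
    [[3940, 40789, 249140, 249140, 249140, 402439, 526243, 528543, 531565, 960000, 960000],
     [3940, 65400, 249140, 249140, 249140, 377828, 526243, 528543, 531565, 960000, 960000],
     [3940, 189204, 249140, 249140, 249140, 377828, 402439, 528543, 531565, 960000, 960000],
     [3940, 191504, 249140, 249140, 249140, 377828, 402439, 526243, 531565, 960000, 960000],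
     [3940, 194526, 249140, 249140, 249140, 377828, 402439, 526243, 528543, 960000, 960000],
     [3940, 249140, 249140, 249140, 377828, 402439, 526243, 528543, 531565, 622961, 960000]] _ (by decide +kernel)
  intro C hC
  simp only [List.mem_cons, List.not_mem_nil, or_false] at hC
  rcases hC with rfl | rfl | rfl | rfl | rfl | rfl
  · exact not_packsM_of_search 257043 tl8 _ h_tl8 (all_false _ _ chk46 _ (by decide +kernel))
  · exact not_packsM_of_search 257043 tl8 _ h_tl8 (all_false _ _ chk47 _ (by decide +kernel))
  · exact not_packsM_of_search 257043 tl8 _ h_tl8 (all_false _ _ chk42 _ (by decide +kernel))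
  · exact not_packsM_of_search 257043 tl8 _ h_tl8 (all_false _ _ chk42 _ (by decide +kernel))
  · exact not_packsM_of_search 257043 tl8 _ h_tl8 (all_false _ _ chk42 _ (by decide +kernel))
  · exact node71

theorem node69 : ¬ PacksM tl6 (([249140, 249140, 249140, 377828, 402439, 419099, 526243, 528543, 531565, 960000, 960000] : List ℕ) : Multiset ℕ) := by
  apply not_packsM_of_cut [415159] tl7 [249140, 249140, 249140, 377828, 402439, 419099, 526243, 528543, 531565, 960000, 960000]
    [[3940, 249140, 249140, 249140, 377828, 402439, 526243, 528543, 531565, 960000, 960000],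
     [111084, 249140, 249140, 249140, 377828, 402439, 419099, 528543, 531565, 960000, 960000],
     [113384, 249140, 249140, 249140, 377828, 402439, 419099, 526243, 531565, 960000, 960000],
     [116406, 249140, 249140, 249140, 377828, 402439, 419099, 526243, 528543, 960000, 960000],
     [249140, 249140, 249140, 377828, 402439, 419099, 526243, 528543, 531565, 544841, 960000]] _ (by decide +kernel)
  intro C hC
  simp only [List.mem_cons, List.not_mem_nil, or_false] at hC
  rcases hC with rfl | rfl | rfl | rfl | rfl
  · exact node70
  · exact not_packsM_of_search 257043 tl7 _ h_tl7 (all_false _ _ chk39 _ (by decide +kernel))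
  · exact not_packsM_of_search 257043 tl7 _ h_tl7 (all_false _ _ chk39 _ (by decide +kernel))
  · exact not_packsM_of_search 257043 tl7 _ h_tl7 (all_false _ _ chk40 _ (by decide +kernel))
  · exact not_packsM_of_search 257043 tl7 _ h_tl7 (all_false _ _ chk38 _ (by decide +kernel))

theorem node68 : ¬ PacksM tl5 (([249140, 249140, 249140, 377828, 402439, 526243, 528543, 531565, 835443, 960000, 960000] : List ℕ) : Multiset ℕ) := by
  apply not_packsM_of_cut [416344] tl6 [249140, 249140, 249140, 377828, 402439, 526243, 528543, 531565, 835443, 960000, 960000]
    [[109899, 249140, 249140, 249140, 377828, 402439, 528543, 531565, 835443, 960000, 960000],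
     [112199, 249140, 249140, 249140, 377828, 402439, 526243, 531565, 835443, 960000, 960000],
     [115221, 249140, 249140, 249140, 377828, 402439, 526243, 528543, 835443, 960000, 960000],
     [249140, 249140, 249140, 377828, 402439, 419099, 526243, 528543, 531565, 960000, 960000],
     [249140, 249140, 249140, 377828, 402439, 526243, 528543, 531565, 543656, 835443, 960000]] _ (by decide +kernel)
  intro C hC
  simp only [List.mem_cons, List.not_mem_nil, or_false] at hC
  rcases hC with rfl | rfl | rfl | rfl | rfl
  · exact not_packsM_of_search 257043 tl6 _ h_tl6 (all_false _ _ chk25 _ (by decide +kernel))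
  · exact not_packsM_of_search 257043 tl6 _ h_tl6 (all_false _ _ chk26 _ (by decide +kernel))
  · exact not_packsM_of_search 257043 tl6 _ h_tl6 (all_false _ _ chk27 _ (by decide +kernel))
  · exact node69
  · exact not_packsM_of_search 257043 tl6 _ h_tl6 (all_false _ _ chk19 _ (by decide +kernel))

theorem node67 : ¬ PacksM tl8 (([3940, 100108, 249140, 249140, 249140, 377828, 402439, 526243, 622961, 960000, 960000] : List ℕ) : Multiset ℕ) := by
  apply not_packsM_of_cut [329299] tl9 [3940, 100108, 249140, 249140, 249140, 377828, 402439, 526243, 622961, 960000, 960000]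
    [[3940, 48529, 100108, 249140, 249140, 249140, 402439, 526243, 622961, 960000, 960000],
     [3940, 73140, 100108, 249140, 249140, 249140, 377828, 526243, 622961, 960000, 960000],
     [3940, 100108, 196944, 249140, 249140, 249140, 377828, 402439, 622961, 960000, 960000],
     [3940, 100108, 249140, 249140, 249140, 293662, 377828, 402439, 526243, 960000, 960000],
     [3940, 100108, 249140, 249140, 249140, 377828, 402439, 526243, 622961, 630701, 960000]] _ (by decide +kernel)
  intro C hC
  simp only [List.mem_cons, List.not_mem_nil, or_false] at hC
  rcases hC with rfl | rfl | rfl | rfl | rfl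
  · exact not_packsM_of_search 257043 tl9 _ h_tl9 (all_false _ _ chk68 _ (by decide +kernel))
  · exact not_packsM_of_search 257043 tl9 _ h_tl9 (all_false _ _ chk64 _ (by decide +kernel))
  · exact not_packsM_of_search 257043 tl9 _ h_tl9 (all_false _ _ chk54 _ (by decide +kernel))
  · exact not_packsM_of_search 257043 tl9 _ h_tl9 (all_false _ _ chk67 _ (by decide +kernel))
  · exact not_packsM_of_search 257043 tl9 _ h_tl9 (all_false _ _ chk55 _ (by decide +kernel))

theorem node66 : ¬ PacksM tl7 (([3940, 100108, 249140, 249140, 249140, 377828, 402439, 526243, 960000, 960000, 960000] : List ℕ) : Multiset ℕ) := by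
  apply not_packsM_of_cut [337039] tl8 [3940, 100108, 249140, 249140, 249140, 377828, 402439, 526243, 960000, 960000, 960000]
    [[3940, 40789, 100108, 249140, 249140, 249140, 402439, 526243, 960000, 960000, 960000],
     [3940, 65400, 100108, 249140, 249140, 249140, 377828, 526243, 960000, 960000, 960000],
     [3940, 100108, 189204, 249140, 249140, 249140, 377828, 402439, 960000, 960000, 960000],
     [3940, 100108, 249140, 249140, 249140, 377828, 402439, 526243, 622961, 960000, 960000]] _ (by decide +kernel)
  intro C hC
  simp only [List.mem_cons, List.not_mem_nil, or_false] at hC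
  rcases hC with rfl | rfl | rfl | rfl
  · exact not_packsM_of_search 257043 tl8 _ h_tl8 (all_false _ _ chk52 _ (by decide +kernel))
  · exact not_packsM_of_search 257043 tl8 _ h_tl8 (all_false _ _ chk53 _ (by decide +kernel))
  · exact not_packsM_of_search 257043 tl8 _ h_tl8 (all_false _ _ chk42 _ (by decide +kernel))
  · exact node67

theorem node65 : ¬ PacksM tl6 (([100108, 249140, 249140, 249140, 377828, 402439, 419099, 526243, 960000, 960000, 960000] : List ℕ) : Multiset ℕ) := by
  apply not_packsM_of_cut [415159] tl7 [100108, 249140, 249140, 249140, 377828, 402439, 419099, 526243, 960000, 960000, 960000]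
    [[3940, 100108, 249140, 249140, 249140, 377828, 402439, 526243, 960000, 960000, 960000],
     [100108, 111084, 249140, 249140, 249140, 377828, 402439, 419099, 960000, 960000, 960000],
     [100108, 249140, 249140, 249140, 377828, 402439, 419099, 526243, 544841, 960000, 960000]] _ (by decide +kernel)
  intro C hC
  simp only [List.mem_cons, List.not_mem_nil, or_false] at hC
  rcases hC with rfl | rfl | rfl
  · exact node66
  · exact not_packsM_of_search 257043 tl7 _ h_tl7 (all_false _ _ chk31 _ (by decide +kernel))
  · exact not_packsM_of_search 257043 tl7 _ h_tl7 (all_false _ _ chk38 _ (by decide +kernel))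

theorem node64 : ¬ PacksM tl5 (([100108, 249140, 249140, 249140, 377828, 402439, 526243, 835443, 960000, 960000, 960000] : List ℕ) : Multiset ℕ) := by
  apply not_packsM_of_cut [416344] tl6 [100108, 249140, 249140, 249140, 377828, 402439, 526243, 835443, 960000, 960000, 960000]
    [[100108, 109899, 249140, 249140, 249140, 377828, 402439, 835443, 960000, 960000, 960000],
     [100108, 249140, 249140, 249140, 377828, 402439, 419099, 526243, 960000, 960000, 960000],
     [100108, 249140, 249140, 249140, 377828, 402439, 526243, 543656, 835443, 960000, 960000]] _ (by decide +kernel)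
  intro C hC
  simp only [List.mem_cons, List.not_mem_nil, or_false] at hC
  rcases hC with rfl | rfl | rfl
  · exact not_packsM_of_search 257043 tl6 _ h_tl6 (all_false _ _ chk16 _ (by decide +kernel))
  · exact node65
  · exact not_packsM_of_search 257043 tl6 _ h_tl6 (all_false _ _ chk24 _ (by decide +kernel))

theorem node63 : ¬ PacksM tl9 (([3940, 97808, 249140, 249140, 249140, 377828, 402439, 528543, 622961, 630701, 960000] : List ℕ) : Multiset ℕ) := by
  apply not_packsM_of_cut [324330] tl10 [3940, 97808, 249140, 249140, 249140, 377828, 402439, 528543, 622961, 630701, 960000]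
    [[3940, 53498, 97808, 249140, 249140, 249140, 402439, 528543, 622961, 630701, 960000],
     [3940, 78109, 97808, 249140, 249140, 249140, 377828, 528543, 622961, 630701, 960000],
     [3940, 97808, 204213, 249140, 249140, 249140, 377828, 402439, 622961, 630701, 960000],
     [3940, 97808, 249140, 249140, 249140, 298631, 377828, 402439, 528543, 630701, 960000],
     [3940, 97808, 249140, 249140, 249140, 306371, 377828, 402439, 528543, 622961, 960000],
     [3940, 97808, 249140, 249140, 249140, 377828, 402439, 528543, 622961, 630701, 635670]] _ (by decide +kernel)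
  intro C hC
  simp only [List.mem_cons, List.not_mem_nil, or_false] at hC
  rcases hC with rfl | rfl | rfl | rfl | rfl | rfl
  · exact not_packsM_of_search 257043 tl10 _ h_tl10 (all_false _ _ chk75 _ (by decide +kernel))
  · exact not_packsM_of_search 257043 tl10 _ h_tl10 (all_false _ _ chk77 _ (by decide +kernel))
  · exact not_packsM_of_search 257043 tl10 _ h_tl10 (all_false _ _ chk70 _ (by decide +kernel))
  · exact not_packsM_of_search 257043 tl10 _ h_tl10 (all_false _ _ chk74 _ (by decide +kernel))
  · exact not_packsM_of_search 257043 tl10 _ h_tl10 (all_false _ _ chk76 _ (by decide +kernel))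
  · exact not_packsM_of_search 257043 tl10 _ h_tl10 (all_false _ _ chk72 _ (by decide +kernel))

theorem node62 : ¬ PacksM tl8 (([3940, 97808, 249140, 249140, 249140, 377828, 402439, 528543, 622961, 960000, 960000] : List ℕ) : Multiset ℕ) := by
  apply not_packsM_of_cut [329299] tl9 [3940, 97808, 249140, 249140, 249140, 377828, 402439, 528543, 622961, 960000, 960000]
    [[3940, 48529, 97808, 249140, 249140, 249140, 402439, 528543, 622961, 960000, 960000],
     [3940, 73140, 97808, 249140, 249140, 249140, 377828, 528543, 622961, 960000, 960000],
     [3940, 97808, 199244, 249140, 249140, 249140, 377828, 402439, 622961, 960000, 960000],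
     [3940, 97808, 249140, 249140, 249140, 293662, 377828, 402439, 528543, 960000, 960000],
     [3940, 97808, 249140, 249140, 249140, 377828, 402439, 528543, 622961, 630701, 960000]] _ (by decide +kernel)
  intro C hC
  simp only [List.mem_cons, List.not_mem_nil, or_false] at hC
  rcases hC with rfl | rfl | rfl | rfl | rfl
  · exact not_packsM_of_search 257043 tl9 _ h_tl9 (all_false _ _ chk64 _ (by decide +kernel))
  · exact not_packsM_of_search 257043 tl9 _ h_tl9 (all_false _ _ chk68 _ (by decide +kernel))
  · exact not_packsM_of_search 257043 tl9 _ h_tl9 (all_false _ _ chk54 _ (by decide +kernel))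
  · exact not_packsM_of_search 257043 tl9 _ h_tl9 (all_false _ _ chk62 _ (by decide +kernel))
  · exact node63

theorem node61 : ¬ PacksM tl7 (([3940, 97808, 249140, 249140, 249140, 377828, 402439, 528543, 960000, 960000, 960000] : List ℕ) : Multiset ℕ) := by
  apply not_packsM_of_cut [337039] tl8 [3940, 97808, 249140, 249140, 249140, 377828, 402439, 528543, 960000, 960000, 960000]
    [[3940, 40789, 97808, 249140, 249140, 249140, 402439, 528543, 960000, 960000, 960000],
     [3940, 65400, 97808, 249140, 249140, 249140, 377828, 528543, 960000, 960000, 960000],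
     [3940, 97808, 191504, 249140, 249140, 249140, 377828, 402439, 960000, 960000, 960000],
     [3940, 97808, 249140, 249140, 249140, 377828, 402439, 528543, 622961, 960000, 960000]] _ (by decide +kernel)
  intro C hC
  simp only [List.mem_cons, List.not_mem_nil, or_false] at hC
  rcases hC with rfl | rfl | rfl | rfl
  · exact not_packsM_of_search 257043 tl8 _ h_tl8 (all_false _ _ chk48 _ (by decide +kernel))
  · exact not_packsM_of_search 257043 tl8 _ h_tl8 (all_false _ _ chk50 _ (by decide +kernel))
  · exact not_packsM_of_search 257043 tl8 _ h_tl8 (all_false _ _ chk42 _ (by decide +kernel))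
  · exact node62

theorem node60 : ¬ PacksM tl6 (([97808, 249140, 249140, 249140, 377828, 402439, 419099, 528543, 960000, 960000, 960000] : List ℕ) : Multiset ℕ) := by
  apply not_packsM_of_cut [415159] tl7 [97808, 249140, 249140, 249140, 377828, 402439, 419099, 528543, 960000, 960000, 960000]
    [[3940, 97808, 249140, 249140, 249140, 377828, 402439, 528543, 960000, 960000, 960000],
     [97808, 113384, 249140, 249140, 249140, 377828, 402439, 419099, 960000, 960000, 960000],
     [97808, 249140, 249140, 249140, 377828, 402439, 419099, 528543, 544841, 960000, 960000]] _ (by decide +kernel)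
  intro C hC
  simp only [List.mem_cons, List.not_mem_nil, or_false] at hC
  rcases hC with rfl | rfl | rfl
  · exact node61
  · exact not_packsM_of_search 257043 tl7 _ h_tl7 (all_false _ _ chk31 _ (by decide +kernel))
  · exact not_packsM_of_search 257043 tl7 _ h_tl7 (all_false _ _ chk37 _ (by decide +kernel))

theorem node59 : ¬ PacksM tl5 (([97808, 249140, 249140, 249140, 377828, 402439, 528543, 835443, 960000, 960000, 960000] : List ℕ) : Multiset ℕ) := by
  apply not_packsM_of_cut [416344] tl6 [97808, 249140, 249140, 249140, 377828, 402439, 528543, 835443, 960000, 960000, 960000]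
    [[97808, 112199, 249140, 249140, 249140, 377828, 402439, 835443, 960000, 960000, 960000],
     [97808, 249140, 249140, 249140, 377828, 402439, 419099, 528543, 960000, 960000, 960000],
     [97808, 249140, 249140, 249140, 377828, 402439, 528543, 543656, 835443, 960000, 960000]] _ (by decide +kernel)
  intro C hC
  simp only [List.mem_cons, List.not_mem_nil, or_false] at hC
  rcases hC with rfl | rfl | rfl
  · exact not_packsM_of_search 257043 tl6 _ h_tl6 (all_false _ _ chk16 _ (by decide +kernel))
  · exact node60
  · exact not_packsM_of_search 257043 tl6 _ h_tl6 (all_false _ _ chk24 _ (by decide +kernel))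

theorem node58 : ¬ PacksM tl4 (([249140, 249140, 249140, 377828, 402439, 526243, 528543, 835443, 960000, 960000, 960000] : List ℕ) : Multiset ℕ) := by
  apply not_packsM_of_cut [428435] tl5 [249140, 249140, 249140, 377828, 402439, 526243, 528543, 835443, 960000, 960000, 960000]
    [[97808, 249140, 249140, 249140, 377828, 402439, 528543, 835443, 960000, 960000, 960000],
     [100108, 249140, 249140, 249140, 377828, 402439, 526243, 835443, 960000, 960000, 960000],
     [249140, 249140, 249140, 377828, 402439, 407008, 526243, 528543, 960000, 960000, 960000],
     [249140, 249140, 249140, 377828, 402439, 526243, 528543, 531565, 835443, 960000, 960000]] _ (by decide +kernel)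
  intro C hC
  simp only [List.mem_cons, List.not_mem_nil, or_false] at hC
  rcases hC with rfl | rfl | rfl | rfl
  · exact node59
  · exact node64
  · exact not_packsM_of_search 257043 tl5 _ h_tl5 (all_false _ _ chk11 _ (by decide +kernel))
  · exact node68

theorem node57 : ¬ PacksM tl4 (([249140, 249140, 249140, 377828, 402439, 403986, 526243, 960000, 960000, 960000, 960000] : List ℕ) : Multiset ℕ) := by
  apply not_packsM_of_cut [428435] tl5 [249140, 249140, 249140, 377828, 402439, 403986, 526243, 960000, 960000, 960000, 960000]
    [[97808, 249140, 249140, 249140, 377828, 402439, 403986, 960000, 960000, 960000, 960000],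
     [249140, 249140, 249140, 377828, 402439, 403986, 526243, 531565, 960000, 960000, 960000]] _ (by decide +kernel)
  intro C hC
  simp only [List.mem_cons, List.not_mem_nil, or_false] at hC
  rcases hC with rfl | rfl
  · exact not_packsM_of_search 257043 tl5 _ h_tl5 (all_false _ _ chk15 _ (by decide +kernel))
  · exact not_packsM_of_search 257043 tl5 _ h_tl5 (all_false _ _ chk10 _ (by decide +kernel))

theorem node56 : ¬ PacksM tl9 (([3940, 94786, 249140, 249140, 249140, 377828, 402439, 531565, 622961, 630701, 960000] : List ℕ) : Multiset ℕ) := by
  apply not_packsM_of_cut [324330] tl10 [3940, 94786, 249140, 249140, 249140, 377828, 402439, 531565, 622961, 630701, 960000]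
    [[3940, 53498, 94786, 249140, 249140, 249140, 402439, 531565, 622961, 630701, 960000],
     [3940, 78109, 94786, 249140, 249140, 249140, 377828, 531565, 622961, 630701, 960000],
     [3940, 94786, 207235, 249140, 249140, 249140, 377828, 402439, 622961, 630701, 960000],
     [3940, 94786, 249140, 249140, 249140, 298631, 377828, 402439, 531565, 630701, 960000],
     [3940, 94786, 249140, 249140, 249140, 306371, 377828, 402439, 531565, 622961, 960000],
     [3940, 94786, 249140, 249140, 249140, 377828, 402439, 531565, 622961, 630701, 635670]] _ (by decide +kernel)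
  intro C hC
  simp only [List.mem_cons, List.not_mem_nil, or_false] at hC
  rcases hC with rfl | rfl | rfl | rfl | rfl | rfl
  · exact not_packsM_of_search 257043 tl10 _ h_tl10 (all_false _ _ chk75 _ (by decide +kernel))
  · exact not_packsM_of_search 257043 tl10 _ h_tl10 (all_false _ _ chk77 _ (by decide +kernel))
  · exact not_packsM_of_search 257043 tl10 _ h_tl10 (all_false _ _ chk70 _ (by decide +kernel))
  · exact not_packsM_of_search 257043 tl10 _ h_tl10 (all_false _ _ chk74 _ (by decide +kernel))
  · exact not_packsM_of_search 257043 tl10 _ h_tl10 (all_false _ _ chk76 _ (by decide +kernel))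
  · exact not_packsM_of_search 257043 tl10 _ h_tl10 (all_false _ _ chk73 _ (by decide +kernel))

theorem node55 : ¬ PacksM tl8 (([3940, 94786, 249140, 249140, 249140, 377828, 402439, 531565, 622961, 960000, 960000] : List ℕ) : Multiset ℕ) := by
  apply not_packsM_of_cut [329299] tl9 [3940, 94786, 249140, 249140, 249140, 377828, 402439, 531565, 622961, 960000, 960000]
    [[3940, 48529, 94786, 249140, 249140, 249140, 402439, 531565, 622961, 960000, 960000],
     [3940, 73140, 94786, 249140, 249140, 249140, 377828, 531565, 622961, 960000, 960000],
     [3940, 94786, 202266, 249140, 249140, 249140, 377828, 402439, 622961, 960000, 960000],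
     [3940, 94786, 249140, 249140, 249140, 293662, 377828, 402439, 531565, 960000, 960000],
     [3940, 94786, 249140, 249140, 249140, 377828, 402439, 531565, 622961, 630701, 960000]] _ (by decide +kernel)
  intro C hC
  simp only [List.mem_cons, List.not_mem_nil, or_false] at hC
  rcases hC with rfl | rfl | rfl | rfl | rfl
  · exact not_packsM_of_search 257043 tl9 _ h_tl9 (all_false _ _ chk63 _ (by decide +kernel))
  · exact not_packsM_of_search 257043 tl9 _ h_tl9 (all_false _ _ chk65 _ (by decide +kernel))
  · exact not_packsM_of_search 257043 tl9 _ h_tl9 (all_false _ _ chk54 _ (by decide +kernel))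
  · exact not_packsM_of_search 257043 tl9 _ h_tl9 (all_false _ _ chk61 _ (by decide +kernel))
  · exact node56

theorem node54 : ¬ PacksM tl7 (([3940, 94786, 249140, 249140, 249140, 377828, 402439, 531565, 960000, 960000, 960000] : List ℕ) : Multiset ℕ) := by
  apply not_packsM_of_cut [337039] tl8 [3940, 94786, 249140, 249140, 249140, 377828, 402439, 531565, 960000, 960000, 960000]
    [[3940, 40789, 94786, 249140, 249140, 249140, 402439, 531565, 960000, 960000, 960000],
     [3940, 65400, 94786, 249140, 249140, 249140, 377828, 531565, 960000, 960000, 960000],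
     [3940, 94786, 194526, 249140, 249140, 249140, 377828, 402439, 960000, 960000, 960000],
     [3940, 94786, 249140, 249140, 249140, 377828, 402439, 531565, 622961, 960000, 960000]] _ (by decide +kernel)
  intro C hC
  simp only [List.mem_cons, List.not_mem_nil, or_false] at hC
  rcases hC with rfl | rfl | rfl | rfl
  · exact not_packsM_of_search 257043 tl8 _ h_tl8 (all_false _ _ chk46 _ (by decide +kernel))
  · exact not_packsM_of_search 257043 tl8 _ h_tl8 (all_false _ _ chk49 _ (by decide +kernel))
  · exact not_packsM_of_search 257043 tl8 _ h_tl8 (all_false _ _ chk42 _ (by decide +kernel))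
  · exact node55

theorem node53 : ¬ PacksM tl6 (([94786, 249140, 249140, 249140, 377828, 402439, 419099, 531565, 960000, 960000, 960000] : List ℕ) : Multiset ℕ) := by
  apply not_packsM_of_cut [415159] tl7 [94786, 249140, 249140, 249140, 377828, 402439, 419099, 531565, 960000, 960000, 960000]
    [[3940, 94786, 249140, 249140, 249140, 377828, 402439, 531565, 960000, 960000, 960000],
     [94786, 116406, 249140, 249140, 249140, 377828, 402439, 419099, 960000, 960000, 960000],
     [94786, 249140, 249140, 249140, 377828, 402439, 419099, 531565, 544841, 960000, 960000]] _ (by decide +kernel)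
  intro C hC
  simp only [List.mem_cons, List.not_mem_nil, or_false] at hC
  rcases hC with rfl | rfl | rfl
  · exact node54
  · exact not_packsM_of_search 257043 tl7 _ h_tl7 (all_false _ _ chk31 _ (by decide +kernel))
  · exact not_packsM_of_search 257043 tl7 _ h_tl7 (all_false _ _ chk36 _ (by decide +kernel))

theorem node52 : ¬ PacksM tl5 (([94786, 249140, 249140, 249140, 377828, 402439, 531565, 835443, 960000, 960000, 960000] : List ℕ) : Multiset ℕ) := by
  apply not_packsM_of_cut [416344] tl6 [94786, 249140, 249140, 249140, 377828, 402439, 531565, 835443, 960000, 960000, 960000]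
    [[94786, 115221, 249140, 249140, 249140, 377828, 402439, 835443, 960000, 960000, 960000],
     [94786, 249140, 249140, 249140, 377828, 402439, 419099, 531565, 960000, 960000, 960000],
     [94786, 249140, 249140, 249140, 377828, 402439, 531565, 543656, 835443, 960000, 960000]] _ (by decide +kernel)
  intro C hC
  simp only [List.mem_cons, List.not_mem_nil, or_false] at hC
  rcases hC with rfl | rfl | rfl
  · exact not_packsM_of_search 257043 tl6 _ h_tl6 (all_false _ _ chk16 _ (by decide +kernel))
  · exact node53
  · exact not_packsM_of_search 257043 tl6 _ h_tl6 (all_false _ _ chk20 _ (by decide +kernel))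

theorem node51 : ¬ PacksM tl4 (([94786, 249140, 249140, 249140, 377828, 402439, 835443, 960000, 960000, 960000, 960000] : List ℕ) : Multiset ℕ) := by
  apply not_packsM_of_cut [428435] tl5 [94786, 249140, 249140, 249140, 377828, 402439, 835443, 960000, 960000, 960000, 960000]
    [[94786, 249140, 249140, 249140, 377828, 402439, 407008, 960000, 960000, 960000, 960000],
     [94786, 249140, 249140, 249140, 377828, 402439, 531565, 835443, 960000, 960000, 960000]] _ (by decide +kernel)
  intro C hC
  simp only [List.mem_cons, List.not_mem_nil, or_false] at hC
  rcases hC with rfl | rfl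
  · exact not_packsM_of_search 257043 tl5 _ h_tl5 (all_false _ _ chk14 _ (by decide +kernel))
  · exact node52

theorem node50 : ¬ PacksM tl3 (([249140, 249140, 249140, 377828, 402439, 526243, 835443, 960000, 960000, 960000, 960000] : List ℕ) : Multiset ℕ) := by
  apply not_packsM_of_cut [431457] tl4 [249140, 249140, 249140, 377828, 402439, 526243, 835443, 960000, 960000, 960000, 960000]
    [[94786, 249140, 249140, 249140, 377828, 402439, 835443, 960000, 960000, 960000, 960000],
     [249140, 249140, 249140, 377828, 402439, 403986, 526243, 960000, 960000, 960000, 960000],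
     [249140, 249140, 249140, 377828, 402439, 526243, 528543, 835443, 960000, 960000, 960000]] _ (by decide +kernel)
  intro C hC
  simp only [List.mem_cons, List.not_mem_nil, or_false] at hC
  rcases hC with rfl | rfl | rfl
  · exact node51
  · exact node57
  · exact node58

theorem node49 : ¬ PacksM tl7 (([3940, 93239, 249140, 249140, 249140, 377828, 528543, 531565, 835443, 960000, 960000] : List ℕ) : Multiset ℕ) := by
  apply not_packsM_of_cut [337039] tl8 [3940, 93239, 249140, 249140, 249140, 377828, 528543, 531565, 835443, 960000, 960000]
    [[3940, 40789, 93239, 249140, 249140, 249140, 528543, 531565, 835443, 960000, 960000],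
     [3940, 93239, 191504, 249140, 249140, 249140, 377828, 531565, 835443, 960000, 960000],
     [3940, 93239, 194526, 249140, 249140, 249140, 377828, 528543, 835443, 960000, 960000],
     [3940, 93239, 249140, 249140, 249140, 377828, 498404, 528543, 531565, 960000, 960000],
     [3940, 93239, 249140, 249140, 249140, 377828, 528543, 531565, 622961, 835443, 960000]] _ (by decide +kernel)
  intro C hC
  simp only [List.mem_cons, List.not_mem_nil, or_false] at hC
  rcases hC with rfl | rfl | rfl | rfl | rfl
  · exact not_packsM_of_search 257043 tl8 _ h_tl8 (all_false _ _ chk51 _ (by decide +kernel))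
  · exact not_packsM_of_search 257043 tl8 _ h_tl8 (all_false _ _ chk42 _ (by decide +kernel))
  · exact not_packsM_of_search 257043 tl8 _ h_tl8 (all_false _ _ chk42 _ (by decide +kernel))
  · exact not_packsM_of_search 257043 tl8 _ h_tl8 (all_false _ _ chk51 _ (by decide +kernel))
  · exact not_packsM_of_search 257043 tl8 _ h_tl8 (all_false _ _ chk43 _ (by decide +kernel))

theorem node48 : ¬ PacksM tl6 (([93239, 249140, 249140, 249140, 377828, 419099, 528543, 531565, 835443, 960000, 960000] : List ℕ) : Multiset ℕ) := by
  apply not_packsM_of_cut [415159] tl7 [93239, 249140, 249140, 249140, 377828, 419099, 528543, 531565, 835443, 960000, 960000]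
    [[3940, 93239, 249140, 249140, 249140, 377828, 528543, 531565, 835443, 960000, 960000],
     [93239, 113384, 249140, 249140, 249140, 377828, 419099, 531565, 835443, 960000, 960000],
     [93239, 116406, 249140, 249140, 249140, 377828, 419099, 528543, 835443, 960000, 960000],
     [93239, 249140, 249140, 249140, 377828, 419099, 420284, 528543, 531565, 960000, 960000],
     [93239, 249140, 249140, 249140, 377828, 419099, 528543, 531565, 544841, 835443, 960000]] _ (by decide +kernel)
  intro C hC
  simp only [List.mem_cons, List.not_mem_nil, or_false] at hC
  rcases hC with rfl | rfl | rfl | rfl | rfl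
  · exact node49
  · exact not_packsM_of_search 257043 tl7 _ h_tl7 (all_false _ _ chk31 _ (by decide +kernel))
  · exact not_packsM_of_search 257043 tl7 _ h_tl7 (all_false _ _ chk31 _ (by decide +kernel))
  · exact not_packsM_of_search 257043 tl7 _ h_tl7 (all_false _ _ chk31 _ (by decide +kernel))
  · exact not_packsM_of_search 257043 tl7 _ h_tl7 (all_false _ _ chk40 _ (by decide +kernel))

theorem node47 : ¬ PacksM tl5 (([93239, 249140, 249140, 249140, 377828, 528543, 531565, 835443, 835443, 960000, 960000] : List ℕ) : Multiset ℕ) := by
  apply not_packsM_of_cut [416344] tl6 [93239, 249140, 249140, 249140, 377828, 528543, 531565, 835443, 835443, 960000, 960000]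
    [[93239, 112199, 249140, 249140, 249140, 377828, 531565, 835443, 835443, 960000, 960000],
     [93239, 115221, 249140, 249140, 249140, 377828, 528543, 835443, 835443, 960000, 960000],
     [93239, 249140, 249140, 249140, 377828, 419099, 528543, 531565, 835443, 960000, 960000],
     [93239, 249140, 249140, 249140, 377828, 528543, 531565, 543656, 835443, 835443, 960000]] _ (by decide +kernel)
  intro C hC
  simp only [List.mem_cons, List.not_mem_nil, or_false] at hC
  rcases hC with rfl | rfl | rfl | rfl
  · exact not_packsM_of_search 257043 tl6 _ h_tl6 (all_false _ _ chk16 _ (by decide +kernel))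
  · exact not_packsM_of_search 257043 tl6 _ h_tl6 (all_false _ _ chk16 _ (by decide +kernel))
  · exact node48
  · exact not_packsM_of_search 257043 tl6 _ h_tl6 (all_false _ _ chk29 _ (by decide +kernel))

theorem node46 : ¬ PacksM tl9 (([3940, 93239, 249140, 249140, 249140, 377828, 407008, 528543, 622961, 630701, 960000] : List ℕ) : Multiset ℕ) := by
  apply not_packsM_of_cut [324330] tl10 [3940, 93239, 249140, 249140, 249140, 377828, 407008, 528543, 622961, 630701, 960000]
    [[3940, 53498, 93239, 249140, 249140, 249140, 407008, 528543, 622961, 630701, 960000],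
     [3940, 82678, 93239, 249140, 249140, 249140, 377828, 528543, 622961, 630701, 960000],
     [3940, 93239, 204213, 249140, 249140, 249140, 377828, 407008, 622961, 630701, 960000],
     [3940, 93239, 249140, 249140, 249140, 298631, 377828, 407008, 528543, 630701, 960000],
     [3940, 93239, 249140, 249140, 249140, 306371, 377828, 407008, 528543, 622961, 960000],
     [3940, 93239, 249140, 249140, 249140, 377828, 407008, 528543, 622961, 630701, 635670]] _ (by decide +kernel)
  intro C hC
  simp only [List.mem_cons, List.not_mem_nil, or_false] at hC
  rcases hC with rfl | rfl | rfl | rfl | rfl | rfl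
  · exact not_packsM_of_search 257043 tl10 _ h_tl10 (all_false _ _ chk75 _ (by decide +kernel))
  · exact not_packsM_of_search 257043 tl10 _ h_tl10 (all_false _ _ chk76 _ (by decide +kernel))
  · exact not_packsM_of_search 257043 tl10 _ h_tl10 (all_false _ _ chk70 _ (by decide +kernel))
  · exact not_packsM_of_search 257043 tl10 _ h_tl10 (all_false _ _ chk73 _ (by decide +kernel))
  · exact not_packsM_of_search 257043 tl10 _ h_tl10 (all_false _ _ chk74 _ (by decide +kernel))
  · exact not_packsM_of_search 257043 tl10 _ h_tl10 (all_false _ _ chk71 _ (by decide +kernel))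

theorem node45 : ¬ PacksM tl8 (([3940, 93239, 249140, 249140, 249140, 377828, 407008, 528543, 622961, 960000, 960000] : List ℕ) : Multiset ℕ) := by
  apply not_packsM_of_cut [329299] tl9 [3940, 93239, 249140, 249140, 249140, 377828, 407008, 528543, 622961, 960000, 960000]
    [[3940, 48529, 93239, 249140, 249140, 249140, 407008, 528543, 622961, 960000, 960000],
     [3940, 77709, 93239, 249140, 249140, 249140, 377828, 528543, 622961, 960000, 960000],
     [3940, 93239, 199244, 249140, 249140, 249140, 377828, 407008, 622961, 960000, 960000],
     [3940, 93239, 249140, 249140, 249140, 293662, 377828, 407008, 528543, 960000, 960000],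
     [3940, 93239, 249140, 249140, 249140, 377828, 407008, 528543, 622961, 630701, 960000]] _ (by decide +kernel)
  intro C hC
  simp only [List.mem_cons, List.not_mem_nil, or_false] at hC
  rcases hC with rfl | rfl | rfl | rfl | rfl
  · exact not_packsM_of_search 257043 tl9 _ h_tl9 (all_false _ _ chk55 _ (by decide +kernel))
  · exact not_packsM_of_search 257043 tl9 _ h_tl9 (all_false _ _ chk68 _ (by decide +kernel))
  · exact not_packsM_of_search 257043 tl9 _ h_tl9 (all_false _ _ chk54 _ (by decide +kernel))
  · exact not_packsM_of_search 257043 tl9 _ h_tl9 (all_false _ _ chk60 _ (by decide +kernel))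
  · exact node46

theorem node44 : ¬ PacksM tl7 (([3940, 93239, 249140, 249140, 249140, 377828, 407008, 528543, 960000, 960000, 960000] : List ℕ) : Multiset ℕ) := by
  apply not_packsM_of_cut [337039] tl8 [3940, 93239, 249140, 249140, 249140, 377828, 407008, 528543, 960000, 960000, 960000]
    [[3940, 40789, 93239, 249140, 249140, 249140, 407008, 528543, 960000, 960000, 960000],
     [3940, 69969, 93239, 249140, 249140, 249140, 377828, 528543, 960000, 960000, 960000],
     [3940, 93239, 191504, 249140, 249140, 249140, 377828, 407008, 960000, 960000, 960000],
     [3940, 93239, 249140, 249140, 249140, 377828, 407008, 528543, 622961, 960000, 960000]] _ (by decide +kernel)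
  intro C hC
  simp only [List.mem_cons, List.not_mem_nil, or_false] at hC
  rcases hC with rfl | rfl | rfl | rfl
  · exact not_packsM_of_search 257043 tl8 _ h_tl8 (all_false _ _ chk45 _ (by decide +kernel))
  · exact not_packsM_of_search 257043 tl8 _ h_tl8 (all_false _ _ chk50 _ (by decide +kernel))
  · exact not_packsM_of_search 257043 tl8 _ h_tl8 (all_false _ _ chk42 _ (by decide +kernel))
  · exact node45

theorem node43 : ¬ PacksM tl6 (([93239, 249140, 249140, 249140, 377828, 407008, 419099, 528543, 960000, 960000, 960000] : List ℕ) : Multiset ℕ) := by
  apply not_packsM_of_cut [415159] tl7 [93239, 249140, 249140, 249140, 377828, 407008, 419099, 528543, 960000, 960000, 960000]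
    [[3940, 93239, 249140, 249140, 249140, 377828, 407008, 528543, 960000, 960000, 960000],
     [93239, 113384, 249140, 249140, 249140, 377828, 407008, 419099, 960000, 960000, 960000],
     [93239, 249140, 249140, 249140, 377828, 407008, 419099, 528543, 544841, 960000, 960000]] _ (by decide +kernel)
  intro C hC
  simp only [List.mem_cons, List.not_mem_nil, or_false] at hC
  rcases hC with rfl | rfl | rfl
  · exact node44
  · exact not_packsM_of_search 257043 tl7 _ h_tl7 (all_false _ _ chk31 _ (by decide +kernel))
  · exact not_packsM_of_search 257043 tl7 _ h_tl7 (all_false _ _ chk36 _ (by decide +kernel))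

theorem node42 : ¬ PacksM tl5 (([93239, 249140, 249140, 249140, 377828, 407008, 528543, 835443, 960000, 960000, 960000] : List ℕ) : Multiset ℕ) := by
  apply not_packsM_of_cut [416344] tl6 [93239, 249140, 249140, 249140, 377828, 407008, 528543, 835443, 960000, 960000, 960000]
    [[93239, 112199, 249140, 249140, 249140, 377828, 407008, 835443, 960000, 960000, 960000],
     [93239, 249140, 249140, 249140, 377828, 407008, 419099, 528543, 960000, 960000, 960000],
     [93239, 249140, 249140, 249140, 377828, 407008, 528543, 543656, 835443, 960000, 960000]] _ (by decide +kernel)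
  intro C hC
  simp only [List.mem_cons, List.not_mem_nil, or_false] at hC
  rcases hC with rfl | rfl | rfl
  · exact not_packsM_of_search 257043 tl6 _ h_tl6 (all_false _ _ chk16 _ (by decide +kernel))
  · exact node43
  · exact not_packsM_of_search 257043 tl6 _ h_tl6 (all_false _ _ chk21 _ (by decide +kernel))

theorem node41 : ¬ PacksM tl4 (([93239, 249140, 249140, 249140, 377828, 528543, 835443, 835443, 960000, 960000, 960000] : List ℕ) : Multiset ℕ) := by
  apply not_packsM_of_cut [428435] tl5 [93239, 249140, 249140, 249140, 377828, 528543, 835443, 835443, 960000, 960000, 960000]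
    [[93239, 100108, 249140, 249140, 249140, 377828, 835443, 835443, 960000, 960000, 960000],
     [93239, 249140, 249140, 249140, 377828, 407008, 528543, 835443, 960000, 960000, 960000],
     [93239, 249140, 249140, 249140, 377828, 528543, 531565, 835443, 835443, 960000, 960000]] _ (by decide +kernel)
  intro C hC
  simp only [List.mem_cons, List.not_mem_nil, or_false] at hC
  rcases hC with rfl | rfl | rfl
  · exact not_packsM_of_search 257043 tl5 _ h_tl5 (all_false _ _ chk6 _ (by decide +kernel))
  · exact node42
  · exact node47

theorem node40 : ¬ PacksM tl9 (([3940, 93239, 249140, 249140, 249140, 377828, 403986, 531565, 622961, 630701, 960000] : List ℕ) : Multiset ℕ) := by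
  apply not_packsM_of_cut [324330] tl10 [3940, 93239, 249140, 249140, 249140, 377828, 403986, 531565, 622961, 630701, 960000]
    [[3940, 53498, 93239, 249140, 249140, 249140, 403986, 531565, 622961, 630701, 960000],
     [3940, 79656, 93239, 249140, 249140, 249140, 377828, 531565, 622961, 630701, 960000],
     [3940, 93239, 207235, 249140, 249140, 249140, 377828, 403986, 622961, 630701, 960000],
     [3940, 93239, 249140, 249140, 249140, 298631, 377828, 403986, 531565, 630701, 960000],
     [3940, 93239, 249140, 249140, 249140, 306371, 377828, 403986, 531565, 622961, 960000],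
     [3940, 93239, 249140, 249140, 249140, 377828, 403986, 531565, 622961, 630701, 635670]] _ (by decide +kernel)
  intro C hC
  simp only [List.mem_cons, List.not_mem_nil, or_false] at hC
  rcases hC with rfl | rfl | rfl | rfl | rfl | rfl
  · exact not_packsM_of_search 257043 tl10 _ h_tl10 (all_false _ _ chk74 _ (by decide +kernel))
  · exact not_packsM_of_search 257043 tl10 _ h_tl10 (all_false _ _ chk76 _ (by decide +kernel))
  · exact not_packsM_of_search 257043 tl10 _ h_tl10 (all_false _ _ chk70 _ (by decide +kernel))
  · exact not_packsM_of_search 257043 tl10 _ h_tl10 (all_false _ _ chk70 _ (by decide +kernel))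
  · exact not_packsM_of_search 257043 tl10 _ h_tl10 (all_false _ _ chk75 _ (by decide +kernel))
  · exact not_packsM_of_search 257043 tl10 _ h_tl10 (all_false _ _ chk70 _ (by decide +kernel))

theorem node39 : ¬ PacksM tl8 (([3940, 93239, 249140, 249140, 249140, 377828, 403986, 531565, 622961, 960000, 960000] : List ℕ) : Multiset ℕ) := by
  apply not_packsM_of_cut [329299] tl9 [3940, 93239, 249140, 249140, 249140, 377828, 403986, 531565, 622961, 960000, 960000]
    [[3940, 48529, 93239, 249140, 249140, 249140, 403986, 531565, 622961, 960000, 960000],
     [3940, 74687, 93239, 249140, 249140, 249140, 377828, 531565, 622961, 960000, 960000],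
     [3940, 93239, 202266, 249140, 249140, 249140, 377828, 403986, 622961, 960000, 960000],
     [3940, 93239, 249140, 249140, 249140, 293662, 377828, 403986, 531565, 960000, 960000],
     [3940, 93239, 249140, 249140, 249140, 377828, 403986, 531565, 622961, 630701, 960000]] _ (by decide +kernel)
  intro C hC
  simp only [List.mem_cons, List.not_mem_nil, or_false] at hC
  rcases hC with rfl | rfl | rfl | rfl | rfl
  · exact not_packsM_of_search 257043 tl9 _ h_tl9 (all_false _ _ chk54 _ (by decide +kernel))
  · exact not_packsM_of_search 257043 tl9 _ h_tl9 (all_false _ _ chk62 _ (by decide +kernel))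
  · exact not_packsM_of_search 257043 tl9 _ h_tl9 (all_false _ _ chk54 _ (by decide +kernel))
  · exact not_packsM_of_search 257043 tl9 _ h_tl9 (all_false _ _ chk60 _ (by decide +kernel))
  · exact node40

theorem node38 : ¬ PacksM tl7 (([3940, 93239, 249140, 249140, 249140, 377828, 403986, 531565, 960000, 960000, 960000] : List ℕ) : Multiset ℕ) := by
  apply not_packsM_of_cut [337039] tl8 [3940, 93239, 249140, 249140, 249140, 377828, 403986, 531565, 960000, 960000, 960000]
    [[3940, 40789, 93239, 249140, 249140, 249140, 403986, 531565, 960000, 960000, 960000],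
     [3940, 66947, 93239, 249140, 249140, 249140, 377828, 531565, 960000, 960000, 960000],
     [3940, 93239, 194526, 249140, 249140, 249140, 377828, 403986, 960000, 960000, 960000],
     [3940, 93239, 249140, 249140, 249140, 377828, 403986, 531565, 622961, 960000, 960000]] _ (by decide +kernel)
  intro C hC
  simp only [List.mem_cons, List.not_mem_nil, or_false] at hC
  rcases hC with rfl | rfl | rfl | rfl
  · exact not_packsM_of_search 257043 tl8 _ h_tl8 (all_false _ _ chk44 _ (by decide +kernel))
  · exact not_packsM_of_search 257043 tl8 _ h_tl8 (all_false _ _ chk49 _ (by decide +kernel))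
  · exact not_packsM_of_search 257043 tl8 _ h_tl8 (all_false _ _ chk42 _ (by decide +kernel))
  · exact node39

theorem node37 : ¬ PacksM tl6 (([93239, 249140, 249140, 249140, 377828, 403986, 419099, 531565, 960000, 960000, 960000] : List ℕ) : Multiset ℕ) := by
  apply not_packsM_of_cut [415159] tl7 [93239, 249140, 249140, 249140, 377828, 403986, 419099, 531565, 960000, 960000, 960000]
    [[3940, 93239, 249140, 249140, 249140, 377828, 403986, 531565, 960000, 960000, 960000],
     [93239, 116406, 249140, 249140, 249140, 377828, 403986, 419099, 960000, 960000, 960000],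
     [93239, 249140, 249140, 249140, 377828, 403986, 419099, 531565, 544841, 960000, 960000]] _ (by decide +kernel)
  intro C hC
  simp only [List.mem_cons, List.not_mem_nil, or_false] at hC
  rcases hC with rfl | rfl | rfl
  · exact node38
  · exact not_packsM_of_search 257043 tl7 _ h_tl7 (all_false _ _ chk31 _ (by decide +kernel))
  · exact not_packsM_of_search 257043 tl7 _ h_tl7 (all_false _ _ chk36 _ (by decide +kernel))

theorem node36 : ¬ PacksM tl5 (([93239, 249140, 249140, 249140, 377828, 403986, 531565, 835443, 960000, 960000, 960000] : List ℕ) : Multiset ℕ) := by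
  apply not_packsM_of_cut [416344] tl6 [93239, 249140, 249140, 249140, 377828, 403986, 531565, 835443, 960000, 960000, 960000]
    [[93239, 115221, 249140, 249140, 249140, 377828, 403986, 835443, 960000, 960000, 960000],
     [93239, 249140, 249140, 249140, 377828, 403986, 419099, 531565, 960000, 960000, 960000],
     [93239, 249140, 249140, 249140, 377828, 403986, 531565, 543656, 835443, 960000, 960000]] _ (by decide +kernel)
  intro C hC
  simp only [List.mem_cons, List.not_mem_nil, or_false] at hC
  rcases hC with rfl | rfl | rfl
  · exact not_packsM_of_search 257043 tl6 _ h_tl6 (all_false _ _ chk16 _ (by decide +kernel))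
  · exact node37
  · exact not_packsM_of_search 257043 tl6 _ h_tl6 (all_false _ _ chk19 _ (by decide +kernel))

theorem node35 : ¬ PacksM tl4 (([93239, 249140, 249140, 249140, 377828, 403986, 835443, 960000, 960000, 960000, 960000] : List ℕ) : Multiset ℕ) := by
  apply not_packsM_of_cut [428435] tl5 [93239, 249140, 249140, 249140, 377828, 403986, 835443, 960000, 960000, 960000, 960000]
    [[93239, 249140, 249140, 249140, 377828, 403986, 407008, 960000, 960000, 960000, 960000],
     [93239, 249140, 249140, 249140, 377828, 403986, 531565, 835443, 960000, 960000, 960000]] _ (by decide +kernel)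
  intro C hC
  simp only [List.mem_cons, List.not_mem_nil, or_false] at hC
  rcases hC with rfl | rfl
  · exact not_packsM_of_search 257043 tl5 _ h_tl5 (all_false _ _ chk14 _ (by decide +kernel))
  · exact node36

theorem node34 : ¬ PacksM tl3 (([93239, 249140, 249140, 249140, 377828, 835443, 835443, 960000, 960000, 960000, 960000] : List ℕ) : Multiset ℕ) := by
  apply not_packsM_of_cut [431457] tl4 [93239, 249140, 249140, 249140, 377828, 835443, 835443, 960000, 960000, 960000, 960000]
    [[93239, 249140, 249140, 249140, 377828, 403986, 835443, 960000, 960000, 960000, 960000],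
     [93239, 249140, 249140, 249140, 377828, 528543, 835443, 835443, 960000, 960000, 960000]] _ (by decide +kernel)
  intro C hC
  simp only [List.mem_cons, List.not_mem_nil, or_false] at hC
  rcases hC with rfl | rfl
  · exact node35
  · exact node41

theorem node33 : ¬ PacksM tl2 (([249140, 249140, 249140, 377828, 526243, 835443, 835443, 960000, 960000, 960000, 960000] : List ℕ) : Multiset ℕ) := by
  apply not_packsM_of_cut [433004] tl3 [249140, 249140, 249140, 377828, 526243, 835443, 835443, 960000, 960000, 960000, 960000]
    [[93239, 249140, 249140, 249140, 377828, 835443, 835443, 960000, 960000, 960000, 960000],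
     [249140, 249140, 249140, 377828, 402439, 526243, 835443, 960000, 960000, 960000, 960000],
     [249140, 249140, 249140, 377828, 526243, 526996, 835443, 835443, 960000, 960000, 960000]] _ (by decide +kernel)
  intro C hC
  simp only [List.mem_cons, List.not_mem_nil, or_false] at hC
  rcases hC with rfl | rfl | rfl
  · exact node34
  · exact node50
  · exact node72

theorem node32 : ¬ PacksM tl8 (([3940, 249140, 249140, 249140, 377828, 401686, 526996, 528543, 531565, 622961, 960000] : List ℕ) : Multiset ℕ) := by
  apply not_packsM_of_cut [329299] tl9 [3940, 249140, 249140, 249140, 377828, 401686, 526996, 528543, 531565, 622961, 960000]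
    [[3940, 48529, 249140, 249140, 249140, 401686, 526996, 528543, 531565, 622961, 960000],
     [3940, 72387, 249140, 249140, 249140, 377828, 526996, 528543, 531565, 622961, 960000],
     [3940, 197697, 249140, 249140, 249140, 377828, 401686, 528543, 531565, 622961, 960000],
     [3940, 199244, 249140, 249140, 249140, 377828, 401686, 526996, 531565, 622961, 960000],
     [3940, 202266, 249140, 249140, 249140, 377828, 401686, 526996, 528543, 622961, 960000],
     [3940, 249140, 249140, 249140, 293662, 377828, 401686, 526996, 528543, 531565, 960000],
     [3940, 249140, 249140, 249140, 377828, 401686, 526996, 528543, 531565, 622961, 630701]] _ (by decide +kernel)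
  intro C hC
  simp only [List.mem_cons, List.not_mem_nil, or_false] at hC
  rcases hC with rfl | rfl | rfl | rfl | rfl | rfl | rfl
  · exact not_packsM_of_search 257043 tl9 _ h_tl9 (all_false _ _ chk56 _ (by decide +kernel))
  · exact not_packsM_of_search 257043 tl9 _ h_tl9 (all_false _ _ chk57 _ (by decide +kernel))
  · exact not_packsM_of_search 257043 tl9 _ h_tl9 (all_false _ _ chk54 _ (by decide +kernel))
  · exact not_packsM_of_search 257043 tl9 _ h_tl9 (all_false _ _ chk54 _ (by decide +kernel))
  · exact not_packsM_of_search 257043 tl9 _ h_tl9 (all_false _ _ chk54 _ (by decide +kernel))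
  · exact not_packsM_of_search 257043 tl9 _ h_tl9 (all_false _ _ chk58 _ (by decide +kernel))
  · exact not_packsM_of_search 257043 tl9 _ h_tl9 (all_false _ _ chk64 _ (by decide +kernel))

theorem node31 : ¬ PacksM tl7 (([3940, 249140, 249140, 249140, 377828, 401686, 526996, 528543, 531565, 960000, 960000] : List ℕ) : Multiset ℕ) := by
  apply not_packsM_of_cut [337039] tl8 [3940, 249140, 249140, 249140, 377828, 401686, 526996, 528543, 531565, 960000, 960000]
    [[3940, 40789, 249140, 249140, 249140, 401686, 526996, 528543, 531565, 960000, 960000],
     [3940, 64647, 249140, 249140, 249140, 377828, 526996, 528543, 531565, 960000, 960000],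
     [3940, 189957, 249140, 249140, 249140, 377828, 401686, 528543, 531565, 960000, 960000],
     [3940, 191504, 249140, 249140, 249140, 377828, 401686, 526996, 531565, 960000, 960000],
     [3940, 194526, 249140, 249140, 249140, 377828, 401686, 526996, 528543, 960000, 960000],
     [3940, 249140, 249140, 249140, 377828, 401686, 526996, 528543, 531565, 622961, 960000]] _ (by decide +kernel)
  intro C hC
  simp only [List.mem_cons, List.not_mem_nil, or_false] at hC
  rcases hC with rfl | rfl | rfl | rfl | rfl | rfl
  · exact not_packsM_of_search 257043 tl8 _ h_tl8 (all_false _ _ chk44 _ (by decide +kernel))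
  · exact not_packsM_of_search 257043 tl8 _ h_tl8 (all_false _ _ chk45 _ (by decide +kernel))
  · exact not_packsM_of_search 257043 tl8 _ h_tl8 (all_false _ _ chk42 _ (by decide +kernel))
  · exact not_packsM_of_search 257043 tl8 _ h_tl8 (all_false _ _ chk42 _ (by decide +kernel))
  · exact not_packsM_of_search 257043 tl8 _ h_tl8 (all_false _ _ chk42 _ (by decide +kernel))
  · exact node32

theorem node30 : ¬ PacksM tl6 (([249140, 249140, 249140, 377828, 401686, 419099, 526996, 528543, 531565, 960000, 960000] : List ℕ) : Multiset ℕ) := by
  apply not_packsM_of_cut [415159] tl7 [249140, 249140, 249140, 377828, 401686, 419099, 526996, 528543, 531565, 960000, 960000]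
    [[3940, 249140, 249140, 249140, 377828, 401686, 526996, 528543, 531565, 960000, 960000],
     [111837, 249140, 249140, 249140, 377828, 401686, 419099, 528543, 531565, 960000, 960000],
     [113384, 249140, 249140, 249140, 377828, 401686, 419099, 526996, 531565, 960000, 960000],
     [116406, 249140, 249140, 249140, 377828, 401686, 419099, 526996, 528543, 960000, 960000],
     [249140, 249140, 249140, 377828, 401686, 419099, 526996, 528543, 531565, 544841, 960000]] _ (by decide +kernel)
  intro C hC
  simp only [List.mem_cons, List.not_mem_nil, or_false] at hC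
  rcases hC with rfl | rfl | rfl | rfl | rfl
  · exact node31
  · exact not_packsM_of_search 257043 tl7 _ h_tl7 (all_false _ _ chk36 _ (by decide +kernel))
  · exact not_packsM_of_search 257043 tl7 _ h_tl7 (all_false _ _ chk39 _ (by decide +kernel))
  · exact not_packsM_of_search 257043 tl7 _ h_tl7 (all_false _ _ chk40 _ (by decide +kernel))
  · exact not_packsM_of_search 257043 tl7 _ h_tl7 (all_false _ _ chk38 _ (by decide +kernel))

theorem node29 : ¬ PacksM tl5 (([249140, 249140, 249140, 377828, 401686, 526996, 528543, 531565, 835443, 960000, 960000] : List ℕ) : Multiset ℕ) := by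
  apply not_packsM_of_cut [416344] tl6 [249140, 249140, 249140, 377828, 401686, 526996, 528543, 531565, 835443, 960000, 960000]
    [[110652, 249140, 249140, 249140, 377828, 401686, 528543, 531565, 835443, 960000, 960000],
     [112199, 249140, 249140, 249140, 377828, 401686, 526996, 531565, 835443, 960000, 960000],
     [115221, 249140, 249140, 249140, 377828, 401686, 526996, 528543, 835443, 960000, 960000],
     [249140, 249140, 249140, 377828, 401686, 419099, 526996, 528543, 531565, 960000, 960000],
     [249140, 249140, 249140, 377828, 401686, 526996, 528543, 531565, 543656, 835443, 960000]] _ (by decide +kernel)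
  intro C hC
  simp only [List.mem_cons, List.not_mem_nil, or_false] at hC
  rcases hC with rfl | rfl | rfl | rfl | rfl
  · exact not_packsM_of_search 257043 tl6 _ h_tl6 (all_false _ _ chk25 _ (by decide +kernel))
  · exact not_packsM_of_search 257043 tl6 _ h_tl6 (all_false _ _ chk26 _ (by decide +kernel))
  · exact not_packsM_of_search 257043 tl6 _ h_tl6 (all_false _ _ chk27 _ (by decide +kernel))
  · exact node30
  · exact not_packsM_of_search 257043 tl6 _ h_tl6 (all_false _ _ chk18 _ (by decide +kernel))

theorem node28 : ¬ PacksM tl8 (([3940, 100108, 249140, 249140, 249140, 377828, 401686, 526996, 622961, 960000, 960000] : List ℕ) : Multiset ℕ) := by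
  apply not_packsM_of_cut [329299] tl9 [3940, 100108, 249140, 249140, 249140, 377828, 401686, 526996, 622961, 960000, 960000]
    [[3940, 48529, 100108, 249140, 249140, 249140, 401686, 526996, 622961, 960000, 960000],
     [3940, 72387, 100108, 249140, 249140, 249140, 377828, 526996, 622961, 960000, 960000],
     [3940, 100108, 197697, 249140, 249140, 249140, 377828, 401686, 622961, 960000, 960000],
     [3940, 100108, 249140, 249140, 249140, 293662, 377828, 401686, 526996, 960000, 960000],
     [3940, 100108, 249140, 249140, 249140, 377828, 401686, 526996, 622961, 630701, 960000]] _ (by decide +kernel)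
  intro C hC
  simp only [List.mem_cons, List.not_mem_nil, or_false] at hC
  rcases hC with rfl | rfl | rfl | rfl | rfl
  · exact not_packsM_of_search 257043 tl9 _ h_tl9 (all_false _ _ chk68 _ (by decide +kernel))
  · exact not_packsM_of_search 257043 tl9 _ h_tl9 (all_false _ _ chk60 _ (by decide +kernel))
  · exact not_packsM_of_search 257043 tl9 _ h_tl9 (all_false _ _ chk54 _ (by decide +kernel))
  · exact not_packsM_of_search 257043 tl9 _ h_tl9 (all_false _ _ chk67 _ (by decide +kernel))
  · exact not_packsM_of_search 257043 tl9 _ h_tl9 (all_false _ _ chk54 _ (by decide +kernel))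

theorem node27 : ¬ PacksM tl7 (([3940, 100108, 249140, 249140, 249140, 377828, 401686, 526996, 960000, 960000, 960000] : List ℕ) : Multiset ℕ) := by
  apply not_packsM_of_cut [337039] tl8 [3940, 100108, 249140, 249140, 249140, 377828, 401686, 526996, 960000, 960000, 960000]
    [[3940, 40789, 100108, 249140, 249140, 249140, 401686, 526996, 960000, 960000, 960000],
     [3940, 64647, 100108, 249140, 249140, 249140, 377828, 526996, 960000, 960000, 960000],
     [3940, 100108, 189957, 249140, 249140, 249140, 377828, 401686, 960000, 960000, 960000],
     [3940, 100108, 249140, 249140, 249140, 377828, 401686, 526996, 622961, 960000, 960000]] _ (by decide +kernel)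
  intro C hC
  simp only [List.mem_cons, List.not_mem_nil, or_false] at hC
  rcases hC with rfl | rfl | rfl | rfl
  · exact not_packsM_of_search 257043 tl8 _ h_tl8 (all_false _ _ chk52 _ (by decide +kernel))
  · exact not_packsM_of_search 257043 tl8 _ h_tl8 (all_false _ _ chk52 _ (by decide +kernel))
  · exact not_packsM_of_search 257043 tl8 _ h_tl8 (all_false _ _ chk42 _ (by decide +kernel))
  · exact node28

theorem node26 : ¬ PacksM tl6 (([100108, 249140, 249140, 249140, 377828, 401686, 419099, 526996, 960000, 960000, 960000] : List ℕ) : Multiset ℕ) := by
  apply not_packsM_of_cut [415159] tl7 [100108, 249140, 249140, 249140, 377828, 401686, 419099, 526996, 960000, 960000, 960000]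
    [[3940, 100108, 249140, 249140, 249140, 377828, 401686, 526996, 960000, 960000, 960000],
     [100108, 111837, 249140, 249140, 249140, 377828, 401686, 419099, 960000, 960000, 960000],
     [100108, 249140, 249140, 249140, 377828, 401686, 419099, 526996, 544841, 960000, 960000]] _ (by decide +kernel)
  intro C hC
  simp only [List.mem_cons, List.not_mem_nil, or_false] at hC
  rcases hC with rfl | rfl | rfl
  · exact node27
  · exact not_packsM_of_search 257043 tl7 _ h_tl7 (all_false _ _ chk31 _ (by decide +kernel))
  · exact not_packsM_of_search 257043 tl7 _ h_tl7 (all_false _ _ chk37 _ (by decide +kernel))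

theorem node25 : ¬ PacksM tl5 (([100108, 249140, 249140, 249140, 377828, 401686, 526996, 835443, 960000, 960000, 960000] : List ℕ) : Multiset ℕ) := by
  apply not_packsM_of_cut [416344] tl6 [100108, 249140, 249140, 249140, 377828, 401686, 526996, 835443, 960000, 960000, 960000]
    [[100108, 110652, 249140, 249140, 249140, 377828, 401686, 835443, 960000, 960000, 960000],
     [100108, 249140, 249140, 249140, 377828, 401686, 419099, 526996, 960000, 960000, 960000],
     [100108, 249140, 249140, 249140, 377828, 401686, 526996, 543656, 835443, 960000, 960000]] _ (by decide +kernel)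
  intro C hC
  simp only [List.mem_cons, List.not_mem_nil, or_false] at hC
  rcases hC with rfl | rfl | rfl
  · exact not_packsM_of_search 257043 tl6 _ h_tl6 (all_false _ _ chk16 _ (by decide +kernel))
  · exact node26
  · exact not_packsM_of_search 257043 tl6 _ h_tl6 (all_false _ _ chk23 _ (by decide +kernel))

theorem node24 : ¬ PacksM tl9 (([3940, 98561, 249140, 249140, 249140, 377828, 401686, 528543, 622961, 630701, 960000] : List ℕ) : Multiset ℕ) := by
  apply not_packsM_of_cut [324330] tl10 [3940, 98561, 249140, 249140, 249140, 377828, 401686, 528543, 622961, 630701, 960000]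
    [[3940, 53498, 98561, 249140, 249140, 249140, 401686, 528543, 622961, 630701, 960000],
     [3940, 77356, 98561, 249140, 249140, 249140, 377828, 528543, 622961, 630701, 960000],
     [3940, 98561, 204213, 249140, 249140, 249140, 377828, 401686, 622961, 630701, 960000],
     [3940, 98561, 249140, 249140, 249140, 298631, 377828, 401686, 528543, 630701, 960000],
     [3940, 98561, 249140, 249140, 249140, 306371, 377828, 401686, 528543, 622961, 960000],
     [3940, 98561, 249140, 249140, 249140, 377828, 401686, 528543, 622961, 630701, 635670]] _ (by decide +kernel)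
  intro C hC
  simp only [List.mem_cons, List.not_mem_nil, or_false] at hC
  rcases hC with rfl | rfl | rfl | rfl | rfl | rfl
  · exact not_packsM_of_search 257043 tl10 _ h_tl10 (all_false _ _ chk75 _ (by decide +kernel))
  · exact not_packsM_of_search 257043 tl10 _ h_tl10 (all_false _ _ chk75 _ (by decide +kernel))
  · exact not_packsM_of_search 257043 tl10 _ h_tl10 (all_false _ _ chk70 _ (by decide +kernel))
  · exact not_packsM_of_search 257043 tl10 _ h_tl10 (all_false _ _ chk74 _ (by decide +kernel))
  · exact not_packsM_of_search 257043 tl10 _ h_tl10 (all_false _ _ chk76 _ (by decide +kernel))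
  · exact not_packsM_of_search 257043 tl10 _ h_tl10 (all_false _ _ chk71 _ (by decide +kernel))

theorem node23 : ¬ PacksM tl8 (([3940, 98561, 249140, 249140, 249140, 377828, 401686, 528543, 622961, 960000, 960000] : List ℕ) : Multiset ℕ) := by
  apply not_packsM_of_cut [329299] tl9 [3940, 98561, 249140, 249140, 249140, 377828, 401686, 528543, 622961, 960000, 960000]
    [[3940, 48529, 98561, 249140, 249140, 249140, 401686, 528543, 622961, 960000, 960000],
     [3940, 72387, 98561, 249140, 249140, 249140, 377828, 528543, 622961, 960000, 960000],
     [3940, 98561, 199244, 249140, 249140, 249140, 377828, 401686, 622961, 960000, 960000],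
     [3940, 98561, 249140, 249140, 249140, 293662, 377828, 401686, 528543, 960000, 960000],
     [3940, 98561, 249140, 249140, 249140, 377828, 401686, 528543, 622961, 630701, 960000]] _ (by decide +kernel)
  intro C hC
  simp only [List.mem_cons, List.not_mem_nil, or_false] at hC
  rcases hC with rfl | rfl | rfl | rfl | rfl
  · exact not_packsM_of_search 257043 tl9 _ h_tl9 (all_false _ _ chk65 _ (by decide +kernel))
  · exact not_packsM_of_search 257043 tl9 _ h_tl9 (all_false _ _ chk68 _ (by decide +kernel))
  · exact not_packsM_of_search 257043 tl9 _ h_tl9 (all_false _ _ chk54 _ (by decide +kernel))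
  · exact not_packsM_of_search 257043 tl9 _ h_tl9 (all_false _ _ chk62 _ (by decide +kernel))
  · exact node24

theorem node22 : ¬ PacksM tl7 (([3940, 98561, 249140, 249140, 249140, 377828, 401686, 528543, 960000, 960000, 960000] : List ℕ) : Multiset ℕ) := by
  apply not_packsM_of_cut [337039] tl8 [3940, 98561, 249140, 249140, 249140, 377828, 401686, 528543, 960000, 960000, 960000]
    [[3940, 40789, 98561, 249140, 249140, 249140, 401686, 528543, 960000, 960000, 960000],
     [3940, 64647, 98561, 249140, 249140, 249140, 377828, 528543, 960000, 960000, 960000],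
     [3940, 98561, 191504, 249140, 249140, 249140, 377828, 401686, 960000, 960000, 960000],
     [3940, 98561, 249140, 249140, 249140, 377828, 401686, 528543, 622961, 960000, 960000]] _ (by decide +kernel)
  intro C hC
  simp only [List.mem_cons, List.not_mem_nil, or_false] at hC
  rcases hC with rfl | rfl | rfl | rfl
  · exact not_packsM_of_search 257043 tl8 _ h_tl8 (all_false _ _ chk48 _ (by decide +kernel))
  · exact not_packsM_of_search 257043 tl8 _ h_tl8 (all_false _ _ chk50 _ (by decide +kernel))
  · exact not_packsM_of_search 257043 tl8 _ h_tl8 (all_false _ _ chk42 _ (by decide +kernel))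
  · exact node23

theorem node21 : ¬ PacksM tl6 (([98561, 249140, 249140, 249140, 377828, 401686, 419099, 528543, 960000, 960000, 960000] : List ℕ) : Multiset ℕ) := by
  apply not_packsM_of_cut [415159] tl7 [98561, 249140, 249140, 249140, 377828, 401686, 419099, 528543, 960000, 960000, 960000]
    [[3940, 98561, 249140, 249140, 249140, 377828, 401686, 528543, 960000, 960000, 960000],
     [98561, 113384, 249140, 249140, 249140, 377828, 401686, 419099, 960000, 960000, 960000],
     [98561, 249140, 249140, 249140, 377828, 401686, 419099, 528543, 544841, 960000, 960000]] _ (by decide +kernel)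
  intro C hC
  simp only [List.mem_cons, List.not_mem_nil, or_false] at hC
  rcases hC with rfl | rfl | rfl
  · exact node22
  · exact not_packsM_of_search 257043 tl7 _ h_tl7 (all_false _ _ chk31 _ (by decide +kernel))
  · exact not_packsM_of_search 257043 tl7 _ h_tl7 (all_false _ _ chk37 _ (by decide +kernel))

theorem node20 : ¬ PacksM tl5 (([98561, 249140, 249140, 249140, 377828, 401686, 528543, 835443, 960000, 960000, 960000] : List ℕ) : Multiset ℕ) := by
  apply not_packsM_of_cut [416344] tl6 [98561, 249140, 249140, 249140, 377828, 401686, 528543, 835443, 960000, 960000, 960000]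
    [[98561, 112199, 249140, 249140, 249140, 377828, 401686, 835443, 960000, 960000, 960000],
     [98561, 249140, 249140, 249140, 377828, 401686, 419099, 528543, 960000, 960000, 960000],
     [98561, 249140, 249140, 249140, 377828, 401686, 528543, 543656, 835443, 960000, 960000]] _ (by decide +kernel)
  intro C hC
  simp only [List.mem_cons, List.not_mem_nil, or_false] at hC
  rcases hC with rfl | rfl | rfl
  · exact not_packsM_of_search 257043 tl6 _ h_tl6 (all_false _ _ chk16 _ (by decide +kernel))
  · exact node21
  · exact not_packsM_of_search 257043 tl6 _ h_tl6 (all_false _ _ chk23 _ (by decide +kernel))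

theorem node19 : ¬ PacksM tl4 (([249140, 249140, 249140, 377828, 401686, 526996, 528543, 835443, 960000, 960000, 960000] : List ℕ) : Multiset ℕ) := by
  apply not_packsM_of_cut [428435] tl5 [249140, 249140, 249140, 377828, 401686, 526996, 528543, 835443, 960000, 960000, 960000]
    [[98561, 249140, 249140, 249140, 377828, 401686, 528543, 835443, 960000, 960000, 960000],
     [100108, 249140, 249140, 249140, 377828, 401686, 526996, 835443, 960000, 960000, 960000],
     [249140, 249140, 249140, 377828, 401686, 407008, 526996, 528543, 960000, 960000, 960000],
     [249140, 249140, 249140, 377828, 401686, 526996, 528543, 531565, 835443, 960000, 960000]] _ (by decide +kernel)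
  intro C hC
  simp only [List.mem_cons, List.not_mem_nil, or_false] at hC
  rcases hC with rfl | rfl | rfl | rfl
  · exact node20
  · exact node25
  · exact not_packsM_of_search 257043 tl5 _ h_tl5 (all_false _ _ chk9 _ (by decide +kernel))
  · exact node29

theorem node18 : ¬ PacksM tl4 (([249140, 249140, 249140, 377828, 401686, 403986, 526996, 960000, 960000, 960000, 960000] : List ℕ) : Multiset ℕ) := by
  apply not_packsM_of_cut [428435] tl5 [249140, 249140, 249140, 377828, 401686, 403986, 526996, 960000, 960000, 960000, 960000]
    [[98561, 249140, 249140, 249140, 377828, 401686, 403986, 960000, 960000, 960000, 960000],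
     [249140, 249140, 249140, 377828, 401686, 403986, 526996, 531565, 960000, 960000, 960000]] _ (by decide +kernel)
  intro C hC
  simp only [List.mem_cons, List.not_mem_nil, or_false] at hC
  rcases hC with rfl | rfl
  · exact not_packsM_of_search 257043 tl5 _ h_tl5 (all_false _ _ chk15 _ (by decide +kernel))
  · exact not_packsM_of_search 257043 tl5 _ h_tl5 (all_false _ _ chk8 _ (by decide +kernel))

theorem node17 : ¬ PacksM tl9 (([3940, 95539, 249140, 249140, 249140, 377828, 401686, 531565, 622961, 630701, 960000] : List ℕ) : Multiset ℕ) := by
  apply not_packsM_of_cut [324330] tl10 [3940, 95539, 249140, 249140, 249140, 377828, 401686, 531565, 622961, 630701, 960000]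
    [[3940, 53498, 95539, 249140, 249140, 249140, 401686, 531565, 622961, 630701, 960000],
     [3940, 77356, 95539, 249140, 249140, 249140, 377828, 531565, 622961, 630701, 960000],
     [3940, 95539, 207235, 249140, 249140, 249140, 377828, 401686, 622961, 630701, 960000],
     [3940, 95539, 249140, 249140, 249140, 298631, 377828, 401686, 531565, 630701, 960000],
     [3940, 95539, 249140, 249140, 249140, 306371, 377828, 401686, 531565, 622961, 960000],
     [3940, 95539, 249140, 249140, 249140, 377828, 401686, 531565, 622961, 630701, 635670]] _ (by decide +kernel)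
  intro C hC
  simp only [List.mem_cons, List.not_mem_nil, or_false] at hC
  rcases hC with rfl | rfl | rfl | rfl | rfl | rfl
  · exact not_packsM_of_search 257043 tl10 _ h_tl10 (all_false _ _ chk70 _ (by decide +kernel))
  · exact not_packsM_of_search 257043 tl10 _ h_tl10 (all_false _ _ chk76 _ (by decide +kernel))
  · exact not_packsM_of_search 257043 tl10 _ h_tl10 (all_false _ _ chk70 _ (by decide +kernel))
  · exact not_packsM_of_search 257043 tl10 _ h_tl10 (all_false _ _ chk73 _ (by decide +kernel))
  · exact not_packsM_of_search 257043 tl10 _ h_tl10 (all_false _ _ chk76 _ (by decide +kernel))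
  · exact not_packsM_of_search 257043 tl10 _ h_tl10 (all_false _ _ chk72 _ (by decide +kernel))

theorem node16 : ¬ PacksM tl8 (([3940, 95539, 249140, 249140, 249140, 377828, 401686, 531565, 622961, 960000, 960000] : List ℕ) : Multiset ℕ) := by
  apply not_packsM_of_cut [329299] tl9 [3940, 95539, 249140, 249140, 249140, 377828, 401686, 531565, 622961, 960000, 960000]
    [[3940, 48529, 95539, 249140, 249140, 249140, 401686, 531565, 622961, 960000, 960000],
     [3940, 72387, 95539, 249140, 249140, 249140, 377828, 531565, 622961, 960000, 960000],
     [3940, 95539, 202266, 249140, 249140, 249140, 377828, 401686, 622961, 960000, 960000],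
     [3940, 95539, 249140, 249140, 249140, 293662, 377828, 401686, 531565, 960000, 960000],
     [3940, 95539, 249140, 249140, 249140, 377828, 401686, 531565, 622961, 630701, 960000]] _ (by decide +kernel)
  intro C hC
  simp only [List.mem_cons, List.not_mem_nil, or_false] at hC
  rcases hC with rfl | rfl | rfl | rfl | rfl
  · exact not_packsM_of_search 257043 tl9 _ h_tl9 (all_false _ _ chk64 _ (by decide +kernel))
  · exact not_packsM_of_search 257043 tl9 _ h_tl9 (all_false _ _ chk61 _ (by decide +kernel))
  · exact not_packsM_of_search 257043 tl9 _ h_tl9 (all_false _ _ chk54 _ (by decide +kernel))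
  · exact not_packsM_of_search 257043 tl9 _ h_tl9 (all_false _ _ chk61 _ (by decide +kernel))
  · exact node17

theorem node15 : ¬ PacksM tl7 (([3940, 95539, 249140, 249140, 249140, 377828, 401686, 531565, 960000, 960000, 960000] : List ℕ) : Multiset ℕ) := by
  apply not_packsM_of_cut [337039] tl8 [3940, 95539, 249140, 249140, 249140, 377828, 401686, 531565, 960000, 960000, 960000]
    [[3940, 40789, 95539, 249140, 249140, 249140, 401686, 531565, 960000, 960000, 960000],
     [3940, 64647, 95539, 249140, 249140, 249140, 377828, 531565, 960000, 960000, 960000],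
     [3940, 95539, 194526, 249140, 249140, 249140, 377828, 401686, 960000, 960000, 960000],
     [3940, 95539, 249140, 249140, 249140, 377828, 401686, 531565, 622961, 960000, 960000]] _ (by decide +kernel)
  intro C hC
  simp only [List.mem_cons, List.not_mem_nil, or_false] at hC
  rcases hC with rfl | rfl | rfl | rfl
  · exact not_packsM_of_search 257043 tl8 _ h_tl8 (all_false _ _ chk47 _ (by decide +kernel))
  · exact not_packsM_of_search 257043 tl8 _ h_tl8 (all_false _ _ chk43 _ (by decide +kernel))
  · exact not_packsM_of_search 257043 tl8 _ h_tl8 (all_false _ _ chk42 _ (by decide +kernel))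
  · exact node16

theorem node14 : ¬ PacksM tl6 (([95539, 249140, 249140, 249140, 377828, 401686, 419099, 531565, 960000, 960000, 960000] : List ℕ) : Multiset ℕ) := by
  apply not_packsM_of_cut [415159] tl7 [95539, 249140, 249140, 249140, 377828, 401686, 419099, 531565, 960000, 960000, 960000]
    [[3940, 95539, 249140, 249140, 249140, 377828, 401686, 531565, 960000, 960000, 960000],
     [95539, 116406, 249140, 249140, 249140, 377828, 401686, 419099, 960000, 960000, 960000],
     [95539, 249140, 249140, 249140, 377828, 401686, 419099, 531565, 544841, 960000, 960000]] _ (by decide +kernel)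
  intro C hC
  simp only [List.mem_cons, List.not_mem_nil, or_false] at hC
  rcases hC with rfl | rfl | rfl
  · exact node15
  · exact not_packsM_of_search 257043 tl7 _ h_tl7 (all_false _ _ chk31 _ (by decide +kernel))
  · exact not_packsM_of_search 257043 tl7 _ h_tl7 (all_false _ _ chk36 _ (by decide +kernel))

theorem node13 : ¬ PacksM tl5 (([95539, 249140, 249140, 249140, 377828, 401686, 531565, 835443, 960000, 960000, 960000] : List ℕ) : Multiset ℕ) := by
  apply not_packsM_of_cut [416344] tl6 [95539, 249140, 249140, 249140, 377828, 401686, 531565, 835443, 960000, 960000, 960000]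
    [[95539, 115221, 249140, 249140, 249140, 377828, 401686, 835443, 960000, 960000, 960000],
     [95539, 249140, 249140, 249140, 377828, 401686, 419099, 531565, 960000, 960000, 960000],
     [95539, 249140, 249140, 249140, 377828, 401686, 531565, 543656, 835443, 960000, 960000]] _ (by decide +kernel)
  intro C hC
  simp only [List.mem_cons, List.not_mem_nil, or_false] at hC
  rcases hC with rfl | rfl | rfl
  · exact not_packsM_of_search 257043 tl6 _ h_tl6 (all_false _ _ chk16 _ (by decide +kernel))
  · exact node14
  · exact not_packsM_of_search 257043 tl6 _ h_tl6 (all_false _ _ chk18 _ (by decide +kernel))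

theorem node12 : ¬ PacksM tl4 (([95539, 249140, 249140, 249140, 377828, 401686, 835443, 960000, 960000, 960000, 960000] : List ℕ) : Multiset ℕ) := by
  apply not_packsM_of_cut [428435] tl5 [95539, 249140, 249140, 249140, 377828, 401686, 835443, 960000, 960000, 960000, 960000]
    [[95539, 249140, 249140, 249140, 377828, 401686, 407008, 960000, 960000, 960000, 960000],
     [95539, 249140, 249140, 249140, 377828, 401686, 531565, 835443, 960000, 960000, 960000]] _ (by decide +kernel)
  intro C hC
  simp only [List.mem_cons, List.not_mem_nil, or_false] at hC
  rcases hC with rfl | rfl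
  · exact not_packsM_of_search 257043 tl5 _ h_tl5 (all_false _ _ chk13 _ (by decide +kernel))
  · exact node13

theorem node11 : ¬ PacksM tl3 (([249140, 249140, 249140, 377828, 401686, 526996, 835443, 960000, 960000, 960000, 960000] : List ℕ) : Multiset ℕ) := by
  apply not_packsM_of_cut [431457] tl4 [249140, 249140, 249140, 377828, 401686, 526996, 835443, 960000, 960000, 960000, 960000]
    [[95539, 249140, 249140, 249140, 377828, 401686, 835443, 960000, 960000, 960000, 960000],
     [249140, 249140, 249140, 377828, 401686, 403986, 526996, 960000, 960000, 960000, 960000],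
     [249140, 249140, 249140, 377828, 401686, 526996, 528543, 835443, 960000, 960000, 960000]] _ (by decide +kernel)
  intro C hC
  simp only [List.mem_cons, List.not_mem_nil, or_false] at hC
  rcases hC with rfl | rfl | rfl
  · exact node12
  · exact node18
  · exact node19

theorem node10 : ¬ PacksM tl4 (([249140, 249140, 249140, 377828, 401686, 402439, 528543, 960000, 960000, 960000, 960000] : List ℕ) : Multiset ℕ) := by
  apply not_packsM_of_cut [428435] tl5 [249140, 249140, 249140, 377828, 401686, 402439, 528543, 960000, 960000, 960000, 960000]
    [[100108, 249140, 249140, 249140, 377828, 401686, 402439, 960000, 960000, 960000, 960000],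
     [249140, 249140, 249140, 377828, 401686, 402439, 528543, 531565, 960000, 960000, 960000]] _ (by decide +kernel)
  intro C hC
  simp only [List.mem_cons, List.not_mem_nil, or_false] at hC
  rcases hC with rfl | rfl
  · exact not_packsM_of_search 257043 tl5 _ h_tl5 (all_false _ _ chk14 _ (by decide +kernel))
  · exact not_packsM_of_search 257043 tl5 _ h_tl5 (all_false _ _ chk6 _ (by decide +kernel))

theorem node9 : ¬ PacksM tl3 (([249140, 249140, 249140, 377828, 401686, 402439, 960000, 960000, 960000, 960000, 960000] : List ℕ) : Multiset ℕ) := by
  apply not_packsM_of_cut [431457] tl4 [249140, 249140, 249140, 377828, 401686, 402439, 960000, 960000, 960000, 960000, 960000]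
    [[249140, 249140, 249140, 377828, 401686, 402439, 528543, 960000, 960000, 960000, 960000]] _ (by decide +kernel)
  intro C hC
  simp only [List.mem_cons, List.not_mem_nil, or_false] at hC
  subst hC
  exact node10

theorem node8 : ¬ PacksM tl2 (([249140, 249140, 249140, 377828, 401686, 835443, 960000, 960000, 960000, 960000, 960000] : List ℕ) : Multiset ℕ) := by
  apply not_packsM_of_cut [433004] tl3 [249140, 249140, 249140, 377828, 401686, 835443, 960000, 960000, 960000, 960000, 960000]
    [[249140, 249140, 249140, 377828, 401686, 402439, 960000, 960000, 960000, 960000, 960000],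
     [249140, 249140, 249140, 377828, 401686, 526996, 835443, 960000, 960000, 960000, 960000]] _ (by decide +kernel)
  intro C hC
  simp only [List.mem_cons, List.not_mem_nil, or_false] at hC
  rcases hC with rfl | rfl
  · exact node9
  · exact node11

theorem node7 : ¬ PacksM tl1 (([249140, 249140, 249140, 377828, 835443, 835443, 960000, 960000, 960000, 960000, 960000] : List ℕ) : Multiset ℕ) := by
  apply not_packsM_of_cut [433757] tl2 [249140, 249140, 249140, 377828, 835443, 835443, 960000, 960000, 960000, 960000, 960000]
    [[249140, 249140, 249140, 377828, 401686, 835443, 960000, 960000, 960000, 960000, 960000],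
     [249140, 249140, 249140, 377828, 526243, 835443, 835443, 960000, 960000, 960000, 960000]] _ (by decide +kernel)
  intro C hC
  simp only [List.mem_cons, List.not_mem_nil, or_false] at hC
  rcases hC with rfl | rfl
  · exact node8
  · exact node33

theorem node6 : ¬ PacksM post (([249140, 249140, 249140, 835443, 835443, 960000, 960000, 960000, 960000, 960000, 960000] : List ℕ) : Multiset ℕ) := by
  apply not_packsM_of_cut [582172] tl1 [249140, 249140, 249140, 835443, 835443, 960000, 960000, 960000, 960000, 960000, 960000]
    [[249140, 249140, 249140, 253271, 835443, 960000, 960000, 960000, 960000, 960000, 960000],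
     [249140, 249140, 249140, 377828, 835443, 835443, 960000, 960000, 960000, 960000, 960000]] _ (by decide +kernel)
  intro C hC
  simp only [List.mem_cons, List.not_mem_nil, or_false] at hC
  rcases hC with rfl | rfl
  · exact not_packsM_of_search 257043 tl1 _ h_tl1 (all_false _ _ chk0 _ (by decide +kernel))
  · exact node7

theorem node5 : ¬ PacksM tl5 (([249140, 249140, 249140, 377828, 526243, 526996, 528543, 531565, 710886, 960000, 960000] : List ℕ) : Multiset ℕ) := by
  apply not_packsM_of_cut [416344] tl6 [249140, 249140, 249140, 377828, 526243, 526996, 528543, 531565, 710886, 960000, 960000]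
    [[109899, 249140, 249140, 249140, 377828, 526996, 528543, 531565, 710886, 960000, 960000],
     [110652, 249140, 249140, 249140, 377828, 526243, 528543, 531565, 710886, 960000, 960000],
     [112199, 249140, 249140, 249140, 377828, 526243, 526996, 531565, 710886, 960000, 960000],
     [115221, 249140, 249140, 249140, 377828, 526243, 526996, 528543, 710886, 960000, 960000],
     [249140, 249140, 249140, 294542, 377828, 526243, 526996, 528543, 531565, 960000, 960000],
     [249140, 249140, 249140, 377828, 526243, 526996, 528543, 531565, 543656, 710886, 960000]] _ (by decide +kernel)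
  intro C hC
  simp only [List.mem_cons, List.not_mem_nil, or_false] at hC
  rcases hC with rfl | rfl | rfl | rfl | rfl | rfl
  · exact not_packsM_of_search 257043 tl6 _ h_tl6 (all_false _ _ chk25 _ (by decide +kernel))
  · exact not_packsM_of_search 257043 tl6 _ h_tl6 (all_false _ _ chk28 _ (by decide +kernel))
  · exact not_packsM_of_search 257043 tl6 _ h_tl6 (all_false _ _ chk28 _ (by decide +kernel))
  · exact not_packsM_of_search 257043 tl6 _ h_tl6 (all_false _ _ chk29 _ (by decide +kernel))
  · exact not_packsM_of_search 257043 tl6 _ h_tl6 (all_false _ _ chk17 _ (by decide +kernel))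
  · exact not_packsM_of_search 257043 tl6 _ h_tl6 (all_false _ _ chk22 _ (by decide +kernel))

theorem node4 : ¬ PacksM tl4 (([249140, 249140, 249140, 377828, 526243, 526996, 528543, 710886, 960000, 960000, 960000] : List ℕ) : Multiset ℕ) := by
  apply not_packsM_of_cut [428435] tl5 [249140, 249140, 249140, 377828, 526243, 526996, 528543, 710886, 960000, 960000, 960000]
    [[97808, 249140, 249140, 249140, 377828, 526996, 528543, 710886, 960000, 960000, 960000],
     [98561, 249140, 249140, 249140, 377828, 526243, 528543, 710886, 960000, 960000, 960000],
     [100108, 249140, 249140, 249140, 377828, 526243, 526996, 710886, 960000, 960000, 960000],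
     [249140, 249140, 249140, 282451, 377828, 526243, 526996, 528543, 960000, 960000, 960000],
     [249140, 249140, 249140, 377828, 526243, 526996, 528543, 531565, 710886, 960000, 960000]] _ (by decide +kernel)
  intro C hC
  simp only [List.mem_cons, List.not_mem_nil, or_false] at hC
  rcases hC with rfl | rfl | rfl | rfl | rfl
  · exact not_packsM_of_search 257043 tl5 _ h_tl5 (all_false _ _ chk12 _ (by decide +kernel))
  · exact not_packsM_of_search 257043 tl5 _ h_tl5 (all_false _ _ chk13 _ (by decide +kernel))
  · exact not_packsM_of_search 257043 tl5 _ h_tl5 (all_false _ _ chk13 _ (by decide +kernel))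
  · exact not_packsM_of_search 257043 tl5 _ h_tl5 (all_false _ _ chk12 _ (by decide +kernel))
  · exact node5

theorem node3 : ¬ PacksM tl3 (([249140, 249140, 249140, 377828, 526243, 526996, 710886, 960000, 960000, 960000, 960000] : List ℕ) : Multiset ℕ) := by
  apply not_packsM_of_cut [431457] tl4 [249140, 249140, 249140, 377828, 526243, 526996, 710886, 960000, 960000, 960000, 960000]
    [[94786, 249140, 249140, 249140, 377828, 526996, 710886, 960000, 960000, 960000, 960000],
     [95539, 249140, 249140, 249140, 377828, 526243, 710886, 960000, 960000, 960000, 960000],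
     [249140, 249140, 249140, 279429, 377828, 526243, 526996, 960000, 960000, 960000, 960000],
     [249140, 249140, 249140, 377828, 526243, 526996, 528543, 710886, 960000, 960000, 960000]] _ (by decide +kernel)
  intro C hC
  simp only [List.mem_cons, List.not_mem_nil, or_false] at hC
  rcases hC with rfl | rfl | rfl | rfl
  · exact not_packsM_of_search 257043 tl4 _ h_tl4 (all_false _ _ chk5 _ (by decide +kernel))
  · exact not_packsM_of_search 257043 tl4 _ h_tl4 (all_false _ _ chk5 _ (by decide +kernel))
  · exact not_packsM_of_search 257043 tl4 _ h_tl4 (all_false _ _ chk4 _ (by decide +kernel))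
  · exact node4

theorem node2 : ¬ PacksM tl2 (([249140, 249140, 249140, 377828, 526243, 710886, 960000, 960000, 960000, 960000, 960000] : List ℕ) : Multiset ℕ) := by
  apply not_packsM_of_cut [433004] tl3 [249140, 249140, 249140, 377828, 526243, 710886, 960000, 960000, 960000, 960000, 960000]
    [[93239, 249140, 249140, 249140, 377828, 710886, 960000, 960000, 960000, 960000, 960000],
     [249140, 249140, 249140, 277882, 377828, 526243, 960000, 960000, 960000, 960000, 960000],
     [249140, 249140, 249140, 377828, 526243, 526996, 710886, 960000, 960000, 960000, 960000]] _ (by decide +kernel)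
  intro C hC
  simp only [List.mem_cons, List.not_mem_nil, or_false] at hC
  rcases hC with rfl | rfl | rfl
  · exact not_packsM_of_search 257043 tl3 _ h_tl3 (all_false _ _ chk3 _ (by decide +kernel))
  · exact not_packsM_of_search 257043 tl3 _ h_tl3 (all_false _ _ chk2 _ (by decide +kernel))
  · exact node3

theorem node1 : ¬ PacksM tl1 (([249140, 249140, 249140, 377828, 710886, 960000, 960000, 960000, 960000, 960000, 960000] : List ℕ) : Multiset ℕ) := by
  apply not_packsM_of_cut [433757] tl2 [249140, 249140, 249140, 377828, 710886, 960000, 960000, 960000, 960000, 960000, 960000]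
    [[249140, 249140, 249140, 277129, 377828, 960000, 960000, 960000, 960000, 960000, 960000],
     [249140, 249140, 249140, 377828, 526243, 710886, 960000, 960000, 960000, 960000, 960000]] _ (by decide +kernel)
  intro C hC
  simp only [List.mem_cons, List.not_mem_nil, or_false] at hC
  rcases hC with rfl | rfl
  · exact not_packsM_of_search 257043 tl2 _ h_tl2 (all_false _ _ chk1 _ (by decide +kernel))
  · exact node2

theorem node0 : ¬ PacksM post (([249140, 249140, 249140, 710886, 960000, 960000, 960000, 960000, 960000, 960000, 960000] : List ℕ) : Multiset ℕ) := by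
  apply not_packsM_of_cut [582172] tl1 [249140, 249140, 249140, 710886, 960000, 960000, 960000, 960000, 960000, 960000, 960000]
    [[128714, 249140, 249140, 249140, 960000, 960000, 960000, 960000, 960000, 960000, 960000],
     [249140, 249140, 249140, 377828, 710886, 960000, 960000, 960000, 960000, 960000, 960000]] _ (by decide +kernel)
  intro C hC
  simp only [List.mem_cons, List.not_mem_nil, or_false] at hC
  rcases hC with rfl | rfl
  · exact not_packsM_of_search 257043 tl1 _ h_tl1 (all_false _ _ chk0 _ (by decide +kernel))
  · exact node1

theorem notA : ¬ PacksM post ((stateA : List ℕ) : Multiset ℕ) := node0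

theorem notB : ¬ PacksM post ((stateB : List ℕ) : Multiset ℕ) := node6

end Vale.Agent.Lib.P302.Gap
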