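import Mathlib
import Vale.Agent.Lib.P302.BinSearch
import Vale.Agent.Lib.P302.Frac

/-!
# P302: the certificates for an instance with 31 items, OPT at least 12 and LP at most 97/9
-/

namespace Vale.Agent.Lib.P302

/-- the reduced list: the 21 middle items and two copies of the smallest item. -/
def refB : List ℕ := [582172, 433757, 433004, 431457, 428435, 416344, 415159, 337039, 329299,
  324330, 320965, 317024, 314873, 310784, 270432, 270099, 268690, 265310, 263413, 258525, 257043,
  124557, 124557]

/-- the 31 item sizes, for bin capacity 960000. -/
def fullB : List ℕ := [710881, 710868, 710860, 582172, 433757, 433004, 431457, 428435, 416344,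
  415159, 337039, 329299, 324330, 320965, 317024, 314873, 310784, 270432, 270099, 268690, 265310,
  263413, 258525, 257043, 124575, 124575, 124567, 124566, 124561, 124559, 124557]

/-- a fractional solution of the configuration LP: numerators over the denominator 36, patterns. -/
def patsB : List (ℕ × List ℕ) := [(18, [710868, 124575, 124557]), (18, [710860, 124575, 124561]), (4, [433757, 270432, 124575, 124575]), (7, [433757, 433757]), (9, [433004, 433004]), (18, [428435, 270432, 258525]), (7, [415159, 270432, 270432]), (27, [416344, 415159, 124575]), (18, [329299, 317024, 310784]), (1, [415159, 415159, 124575]), (18, [329299, 314873, 314873]), (18, [320965, 320965, 317024]), (18, [324330, 324330, 310784]), (18, [431457, 270099, 257043]), (9, [416344, 270099, 270099]), (18, [428435, 265310, 265310]), (18, [433004, 263413, 263413]), (18, [431457, 268690, 258525]), (18, [433757, 268690, 257043]), (36, [582172, 337039]), (18, [710860, 124567, 124567]), (18, [710868, 124566, 124566]), (18, [710881, 124561, 124557]), (18, [710881, 124559, 124559])]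

theorem refB_search : search 960000 (fun _ _ => true) 8 refB = false := by
  decide +kernel

theorem fullB_search :
    search 960000 (fun k' l => !(Nat.beq k' 8 && domBy refB l)) 11 fullB = false := by
  decide +kernel

theorem lpB_check : lpCheck 960000 fullB 36 patsB = true := by
  decide +kernel

theorem patsB_total : (patsB.map Prod.fst).sum = 388 := by
  decide +kernel

theorem fullB_range : ∀ x ∈ fullB, 0 < x ∧ x ≤ 960000 := by
  decide +kernel

end Vale.Agent.Lib.P302
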